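import Mathlib

/-! The abstract grid / idempotent-chain argument. -/

set_option autoImplicit false
set_option linter.unusedSectionVars false
set_option linter.style.haveILetI false

namespace Crest.Agent.H0444

open Relation

theorem exists_idem {S : Type*} [Semigroup S] [Finite S] (P : S → Prop) (hne : ∃ x, P x)
    (hmul : ∀ x y, P x → P y → P (x * y)) : ∃ e, P e ∧ e * e = e := by
  letI : TopologicalSpace S := ⊥
  haveI : DiscreteTopology S := ⟨rfl⟩
  obtain ⟨m, hm, hmm⟩ := exists_idempotent_in_compact_subsemigroup (M := S)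
    (fun _ => continuous_of_discreteTopology) {x | P x} hne (Set.toFinite _).isCompact
    (fun x hx y hy => hmul x y hx hy)
  exact ⟨m, hm, hmm⟩

section rels
variable {α : Type*}

/-- partial identity on `X` together with extra edges `Γ` -/
def rl (X : Finset α) (Γ : Finset (α × α)) : α → α → Prop :=
  fun u v => (u = v ∧ u ∈ X) ∨ (u, v) ∈ Γ

theorem rl_idem (X : Finset α) : Comp (rl X ∅) (rl X ∅) = rl X ∅ := by
  ext u v; simp only [Comp, rl]; grind

theorem rl_comp [DecidableEq α] (X A C : Finset α) (hA : A ⊆ X) (hC : C ⊆ X) (hd : Disjoint A C)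
    (Γ Δ : Finset (α × α)) (hΓ : Γ ⊆ A ×ˢ C) (hΔ : Δ ⊆ A ×ˢ C) :
    Comp (rl X Γ) (rl X Δ) = rl X (Γ ∪ Δ) := by
  ext u v
  simp only [Comp, rl, Finset.mem_union]
  constructor
  · rintro ⟨b, h1 | h1, h2 | h2⟩
    · left; exact ⟨h1.1.trans h2.1, h1.2⟩
    · right; right; rw [h1.1]; exact h2
    · right; left; rw [← h2.1]; exact h1
    · exfalso
      have h3 := (Finset.mem_product.1 (hΓ h1)).2
      have h4 := (Finset.mem_product.1 (hΔ h2)).1
      exact Finset.disjoint_left.1 hd h4 h3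
  · rintro (h | h | h)
    · exact ⟨u, Or.inl ⟨rfl, h.2⟩, Or.inl h⟩
    · exact ⟨v, Or.inr h, Or.inl ⟨rfl, hC (Finset.mem_product.1 (hΓ h)).2⟩⟩
    · exact ⟨u, Or.inl ⟨rfl, hA (Finset.mem_product.1 (hΔ h)).1⟩, Or.inr h⟩

theorem rl_path (X Y : Finset α) (a b c : α) (hb : b ∉ Y) (hYX : Y ⊆ X) (ha : a ∈ Y) (hc : c ∈ Y) :
    Comp (Comp (Comp (rl Y ∅) (rl X {(a, b)})) (rl X {(b, c)})) (rl Y ∅) = rl Y {(a, c)} := by
  ext p q
  simp only [Comp, rl, Finset.notMem_empty, or_false, Finset.mem_singleton, Prod.mk.injEq]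
  constructor
  · rintro ⟨_, ⟨s, ⟨_, ⟨rfl, hp⟩, h1⟩, h2⟩, rfl, hq⟩
    rcases h1 with ⟨rfl, -⟩ | ⟨rfl, rfl⟩
    · rcases h2 with ⟨rfl, -⟩ | ⟨rfl, rfl⟩
      · exact Or.inl ⟨rfl, hp⟩
      · exact (hb hp).elim
    · rcases h2 with ⟨rfl, -⟩ | ⟨-, rfl⟩
      · exact (hb hq).elim
      · exact Or.inr ⟨rfl, rfl⟩
  · rintro (⟨rfl, hp⟩ | ⟨rfl, rfl⟩)
    · exact ⟨p, ⟨p, ⟨p, ⟨rfl, hp⟩, Or.inl ⟨rfl, hYX hp⟩⟩, Or.inl ⟨rfl, hYX hp⟩⟩, rfl, hp⟩
    · exact ⟨q, ⟨b, ⟨p, ⟨rfl, ha⟩, Or.inr ⟨rfl, rfl⟩⟩, Or.inr ⟨rfl, rfl⟩⟩, rfl, hc⟩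

theorem rl_sand (W : Finset α) (R : α → α → Prop) :
    Comp (Comp (rl W ∅) R) (rl W ∅) = fun u v => u ∈ W ∧ R u v ∧ v ∈ W := by
  ext p q
  simp only [Comp, rl, Finset.notMem_empty, or_false]
  constructor
  · rintro ⟨_, ⟨_, ⟨rfl, hp⟩, h1⟩, rfl, hq⟩
    exact ⟨hp, h1, hq⟩
  · rintro ⟨hp, h1, hq⟩
    exact ⟨q, ⟨p, ⟨rfl, hp⟩, h1⟩, rfl, hq⟩

end rels

/-- The data of the abstract argument. -/
structure Sys (α S Hub : Type*) [Semigroup S] [DecidableEq Hub] (N : ℕ) where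
  Over : S → (α → α → Prop) → Prop
  Cov : S → S → Finset Hub → Prop
  over_mul : ∀ {x y R R'}, Over x R → Over y R' → Over (x * y) (Comp R R')
  over_surj : ∀ R, ∃ x, Over x R
  cov_mul : ∀ x x', ∃ f g : Hub → Hub, ∀ y y' A B R R' Q Q', Over x R → Over x' R' →
    Over y Q → Over y' Q' → Cov x y A → Cov x' y' B → Cov (x * x') (y * y') (A.image f ∪ B.image g)
  cov_refl : ∀ x, Cov x x ∅
  cov_init : ∀ x y R Q, Over x R → Over y Q → ∃ A : Finset Hub, A.card ≤ N ∧ Cov x y A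
  cov_zero : ∀ {x y R Q}, Cov x y ∅ → Over x R → Over y Q → ∀ u v, Q u v → R u v
  chain : ∀ e R, Over e R → e * e = e → ∀ G : Finset Hub, ∃ (Good : S → Prop) (n : S → ℕ),
    Good e ∧ (∀ x y, Good x → Good y → Good (x * y)) ∧
    (∀ y A Q, Over y Q → A ⊆ G → Cov e y A → e * y = y → y * e = y → Good y) ∧ n e ≤ 4 * G.card ∧
    ∀ x x' Q Q', Over x Q → Over x' Q' → Good x → Good x' → x * x = x → x' * x' = x' →
      x * x' = x' → x' * x = x' → ∃ A, Cov x x' A ∧ A.card + n x' ≤ n x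

namespace Sys

variable {α S Hub : Type*} [Semigroup S] [Finite S] [DecidableEq Hub] [DecidableEq α] {N : ℕ}
  (Z : Sys α S Hub N)

theorem generic (X : Finset α) : ∃ e, Z.Over e (rl X ∅) ∧ e * e = e ∧
    ∀ f, Z.Over f (rl X ∅) → f * f = f → e * f = f → f * e = f → f = e := by
  have hne : ∃ e, Z.Over e (rl X ∅) ∧ e * e = e :=
    exists_idem _ (Z.over_surj _) (fun x y hx hy => by simpa [rl_idem] using Z.over_mul hx hy)
  obtain ⟨e, ⟨he, hee⟩, hmin⟩ := Set.exists_min_image {e | Z.Over e (rl X ∅) ∧ e * e = e}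
    (fun e => Set.ncard {z : S | e * z = z ∧ z * e = z}) (Set.toFinite _) hne
  refine ⟨e, he, hee, fun f hf hff hef hfe => ?_⟩
  have hsub : {z : S | f * z = z ∧ z * f = z} ⊆ {z : S | e * z = z ∧ z * e = z} := by
    rintro z ⟨h1, h2⟩
    refine ⟨?_, ?_⟩
    · rw [← h1, ← mul_assoc, hef]
    · rw [← h2, mul_assoc, hfe]
  have heq := Set.eq_of_subset_of_ncard_le hsub (hmin f ⟨hf, hff⟩) (Set.toFinite _)
  have : e ∈ {z : S | f * z = z ∧ z * f = z} := by rw [heq]; exact ⟨hee, hee⟩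
  exact hfe.symm.trans this.1

/-- the inductive statement -/
def P (X : Finset α) (d : ℕ) : Prop :=
  ∃ x y A p q l r R Q, p ∈ X ∧ q ∈ X ∧ p ≠ q ∧ Z.Over x R ∧ Z.Over y Q ∧ Z.Cov x y A ∧
    A.card ≤ d ∧ Comp (Comp l R) r = rl X ∅ ∧ Comp (Comp l Q) r = rl X {(p, q)}

theorem P_pos {X : Finset α} {d : ℕ} (h : Z.P X d) : 1 ≤ d := by
  obtain ⟨x, y, A, p, q, l, r, R, Q, -, -, hpq, hx, hy, hc, hA, h1, h2⟩ := h
  by_contra hd
  have : A = ∅ := Finset.card_eq_zero.1 (by omega)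
  subst this
  have h3 : rl X {(p, q)} p q := Or.inr (by simp)
  rw [← h2] at h3
  obtain ⟨b, ⟨a, h4, h5⟩, h6⟩ := h3
  have h7 : Comp (Comp l R) r p q := ⟨b, ⟨a, h4, Z.cov_zero hc hx hy _ _ h5⟩, h6⟩
  rw [h1] at h7
  rcases h7 with h | h
  · exact hpq h.1
  · simp at h

theorem cov_sand {a x y b : S} {A : Finset Hub} {Ra R Q Rb} (ha : Z.Over a Ra) (hx : Z.Over x R)
    (hy : Z.Over y Q) (hb : Z.Over b Rb) (hc : Z.Cov x y A) :
    ∃ A' : Finset Hub, A'.card ≤ A.card ∧ Z.Cov (a * x * b) (a * y * b) A' := by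
  obtain ⟨f, g, h1⟩ := Z.cov_mul a x
  obtain ⟨f', g', h2⟩ := Z.cov_mul (a * x) b
  have h3 := h1 a y ∅ A _ _ _ _ ha hx ha hy (Z.cov_refl a) hc
  have h4 := h2 (a * y) b _ ∅ _ _ _ _ (Z.over_mul ha hx) hb (Z.over_mul ha hy) hb h3 (Z.cov_refl b)
  refine ⟨_, ?_, h4⟩
  simp only [Finset.image_empty, Finset.empty_union, Finset.union_empty]
  exact Finset.card_image_le.trans Finset.card_image_le

theorem normalize {X : Finset α} {d : ℕ} (h : Z.P X d) : ∃ e, Z.Over e (rl X ∅) ∧ e * e = e ∧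
    ∀ a b, a ∈ X → b ∈ X → a ≠ b → ∃ t A, Z.Over t (rl X {(a, b)}) ∧ Z.Cov e t A ∧ A.card ≤ d := by
  obtain ⟨x, y, A, p, q, l, r, R, Q, hp, hq, hpq, hx, hy, hc, hA, h1, h2⟩ := h
  obtain ⟨e, he, hee, hgen⟩ := Z.generic X
  refine ⟨e, he, hee, fun a b ha hb hab => ?_⟩
  -- a permutation carrying (p,q) to (a,b)
  obtain ⟨π, hπp, hπq, hπX⟩ : ∃ π : Equiv.Perm α, π p = a ∧ π q = b ∧ ∀ z, π z ∈ X ↔ z ∈ X := by
    have hsw : ∀ u v : α, u ∈ X → v ∈ X → ∀ z, Equiv.swap u v z ∈ X ↔ z ∈ X := by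
      intro u v hu hv z
      rw [Equiv.swap_apply_def]; split_ifs with h h' <;> simp_all
    refine ⟨(Equiv.swap p a).trans (Equiv.swap (Equiv.swap p a q) b), ?_, ?_, ?_⟩
    · simp only [Equiv.trans_apply, Equiv.swap_apply_left]
      refine Equiv.swap_apply_of_ne_of_ne ?_ hab
      intro h
      apply hpq
      apply (Equiv.swap p a).injective
      rw [← h, Equiv.swap_apply_left]
    · simp
    · intro z
      simp only [Equiv.trans_apply]
      rw [hsw _ _ ((hsw p a hp ha q).2 hq) hb, hsw _ _ hp ha]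
  let l' : α → α → Prop := Comp (fun u v => u = π v) l
  let r' : α → α → Prop := Comp r (fun u v => v = π u)
  have hconj : ∀ W : α → α → Prop, Comp (Comp l' W) r' =
      fun u v => Comp (Comp l W) r (π.symm u) (π.symm v) := by
    intro W
    ext u v
    simp only [l', r', Comp]
    constructor
    · rintro ⟨b1, ⟨a1, ⟨c, rfl, h3⟩, h4⟩, c', h5, rfl⟩
      exact ⟨b1, ⟨a1, by simpa using h3, h4⟩, by simpa using h5⟩
    · rintro ⟨b1, ⟨a1, h3, h4⟩, h5⟩
      exact ⟨b1, ⟨a1, ⟨π.symm u, by simp, h3⟩, h4⟩, π.symm v, h5, by simp⟩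
  have h1' : Comp (Comp l' R) r' = rl X ∅ := by
    rw [hconj, h1]
    ext u v
    have := hπX (π.symm u)
    simp only [rl, Finset.notMem_empty, or_false, EmbeddingLike.apply_eq_iff_eq]
    simp only [Equiv.apply_symm_apply] at this
    rw [this]
  have h2' : Comp (Comp l' Q) r' = rl X {(a, b)} := by
    rw [hconj, h2]
    ext u v
    have := hπX (π.symm u)
    simp only [rl, Finset.mem_singleton, Prod.mk.injEq, EmbeddingLike.apply_eq_iff_eq,
      Equiv.symm_apply_eq, hπp, hπq]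
    simp only [Equiv.apply_symm_apply] at this
    rw [this]
  obtain ⟨L, hL⟩ := Z.over_surj l'
  obtain ⟨M, hM⟩ := Z.over_surj r'
  have hg : Z.Over (L * x * M * e) (rl X ∅) := by
    have := Z.over_mul (Z.over_mul (Z.over_mul hL hx) hM) he
    rwa [h1', rl_idem] at this
  obtain ⟨f, ⟨g', hg', heg, rfl⟩, hff⟩ := exists_idem
    (fun z => ∃ g', Z.Over g' (rl X ∅) ∧ e * g' = g' ∧ z = g' * (L * x * M * e))
    ⟨_, e, he, hee, rfl⟩ (by
      rintro _ _ ⟨g1, hg1, he1, rfl⟩ ⟨g2, hg2, he2, rfl⟩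
      refine ⟨g1 * (L * x * M * e) * g2, ?_, ?_, ?_⟩
      · have := Z.over_mul (Z.over_mul hg1 hg) hg2
        rwa [rl_idem, rl_idem] at this
      · rw [← mul_assoc, ← mul_assoc, he1]
      · simp only [mul_assoc])
  have hfe : g' * (L * x * M * e) = e := by
    refine hgen _ ?_ hff ?_ ?_
    · have := Z.over_mul hg' hg
      rwa [rl_idem] at this
    · rw [← mul_assoc, heg]
    · rw [mul_assoc, mul_assoc _ e e, hee]
  obtain ⟨A', hA', hc'⟩ := Z.cov_sand (Z.over_mul hg' hL) hx hy (Z.over_mul hM he) hc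
  have e1 : g' * L * x * (M * e) = e := by
    refine Eq.trans ?_ hfe
    simp only [mul_assoc]
  rw [e1] at hc'
  refine ⟨_, A', ?_, hc', hA'.trans hA⟩
  have := Z.over_mul (Z.over_mul (Z.over_mul hg' hL) hy) (Z.over_mul hM he)
  convert this using 1
  have e2 : Comp (Comp (Comp (rl X ∅) l') Q) (Comp r' (rl X ∅)) =
      Comp (rl X ∅) (Comp (Comp (Comp l' Q) r') (rl X ∅)) := by
    simp only [Relation.comp_assoc]
  rw [e2, h2']
  ext u v; simp only [Comp, rl]; grind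

theorem step {X : Finset α} {d : ℕ} (h : Z.P X d) (hX : 33 ≤ X.card) :
    ∃ X' d', X.card ≤ X'.card + 31 ∧ 2 * d' ≤ d ∧ Z.P X' d' := by
  classical
  obtain ⟨e, he, hee, ht⟩ := Z.normalize h
  obtain ⟨b, hb⟩ : X.Nonempty := Finset.card_pos.1 (by omega)
  have hX' : (X.erase b).card = X.card - 1 := Finset.card_erase_of_mem hb
  obtain ⟨A, hA, hAc⟩ := Finset.exists_subset_card_eq (s := X.erase b) (n := 16) (by omega)
  have hX'' : ((X.erase b) \ A).card = X.card - 1 - 16 := by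
    rw [Finset.card_sdiff_of_subset hA, hX', hAc]
  obtain ⟨C, hC0, hCc⟩ := Finset.exists_subset_card_eq (s := (X.erase b) \ A) (n := 16) (by omega)
  have hC : C ⊆ X.erase b := hC0.trans Finset.sdiff_subset
  have hAC : Disjoint A C := by
    rw [Finset.disjoint_right]
    intro z hz; exact (Finset.mem_sdiff.1 (hC0 hz)).2
  set Y := X.erase b with hY
  have hbY : b ∉ Y := Finset.notMem_erase _ _
  have hYX : Y ⊆ X := Finset.erase_subset _ _
  -- idempotent killing `b`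
  obtain ⟨ε, ⟨hε, heε, hεe⟩, hεε⟩ := exists_idem
    (fun z => Z.Over z (rl Y ∅) ∧ e * z = z ∧ z * e = z) (by
      obtain ⟨k, hk⟩ := Z.over_surj (rl Y ∅)
      refine ⟨e * k * e, ?_, ?_, ?_⟩
      · convert Z.over_mul (Z.over_mul he hk) he using 1
        ext u v; simp only [Comp, rl]
        have := @hYX u
        grind
      · rw [← mul_assoc, ← mul_assoc, hee]
      · rw [mul_assoc, hee]) (by
      rintro x y ⟨h1, h2, h3⟩ ⟨h4, h5, h6⟩
      refine ⟨by simpa [rl_idem] using Z.over_mul h1 h4, ?_, ?_⟩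
      · rw [← mul_assoc, h2]
      · rw [mul_assoc, h6])
  have hu : ∀ a, ∃ t A', a ∈ A → Z.Over t (rl X {(a, b)}) ∧ Z.Cov e t A' ∧ A'.card ≤ d := by
    intro a
    by_cases ha : a ∈ A
    · obtain ⟨t, A', h'⟩ := ht a b (hYX (hA ha)) hb (fun h => hbY (h ▸ hA ha))
      exact ⟨t, A', fun _ => h'⟩
    · exact ⟨e, ∅, fun h => (ha h).elim⟩
  have hv : ∀ c, ∃ t A', c ∈ C → Z.Over t (rl X {(b, c)}) ∧ Z.Cov e t A' ∧ A'.card ≤ d := by
    intro c
    by_cases hc : c ∈ C
    · obtain ⟨t, A', h'⟩ := ht b c hb (hYX (hC hc)) (fun h => hbY (h ▸ hC hc))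
      exact ⟨t, A', fun _ => h'⟩
    · exact ⟨e, ∅, fun h => (hc h).elim⟩
  choose u U hu using hu
  choose v V hv using hv
  obtain ⟨f1, g1, c1⟩ := Z.cov_mul ε e
  obtain ⟨f2, g2, c2⟩ := Z.cov_mul (ε * e) e
  obtain ⟨f3, g3, c3⟩ := Z.cov_mul (ε * e * e) ε
  let G : Finset Hub := A.biUnion (fun a => (U a).image (f3 ∘ f2 ∘ g1)) ∪
    C.biUnion (fun c => (V c).image (f3 ∘ g2))
  have hG : G.card ≤ 32 * d := by
    refine (Finset.card_union_le _ _).trans ?_
    have h1 : (A.biUnion (fun a => (U a).image (f3 ∘ f2 ∘ g1))).card ≤ A.card * d :=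
      Finset.card_biUnion_le_card_mul _ _ _ (fun a ha => Finset.card_image_le.trans (hu a ha).2.2)
    have h2 : (C.biUnion (fun c => (V c).image (f3 ∘ g2))).card ≤ C.card * d :=
      Finset.card_biUnion_le_card_mul _ _ _ (fun c hc => Finset.card_image_le.trans (hv c hc).2.2)
    rw [hAc] at h1; rw [hCc] at h2; omega
  obtain ⟨Good, n, hgε, hgmul, hgcov, hn, hch⟩ := Z.chain ε _ hε hεε G
  have hy : ∀ a ∈ A, ∀ c ∈ C, ∃ y, Z.Over y (rl Y {(a, c)}) ∧ Good y := by
    intro a ha c hc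
    have hover : Z.Over (ε * u a * v c * ε) (rl Y {(a, c)}) := by
      rw [← rl_path X Y a b c hbY hYX (hA ha) (hC hc)]
      exact Z.over_mul (Z.over_mul (Z.over_mul hε (hu a ha).1) (hv c hc).1) hε
    refine ⟨_, hover, ?_⟩
    have d1 := c1 ε (u a) ∅ _ _ _ _ _ hε he hε (hu a ha).1 (Z.cov_refl _) (hu a ha).2.1
    have d2 := c2 _ (v c) _ _ _ _ _ _ (Z.over_mul hε he) he (Z.over_mul hε (hu a ha).1)
      (hv c hc).1 d1 (hv c hc).2.1
    have d3 := c3 _ ε _ ∅ _ _ _ _ (Z.over_mul (Z.over_mul hε he) he) hε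
      (Z.over_mul (Z.over_mul hε (hu a ha).1) (hv c hc).1) hε d2 (Z.cov_refl _)
    rw [hεe, hεe, hεε] at d3
    refine hgcov _ _ _ hover ?_ d3 ?_ ?_
    · simp only [Finset.image_empty, Finset.empty_union, Finset.union_empty, Finset.image_union,
        Finset.image_image]
      refine Finset.union_subset_union ?_ ?_
      · exact Finset.subset_biUnion_of_mem (fun a => (U a).image (f3 ∘ f2 ∘ g1)) ha
      · exact Finset.subset_biUnion_of_mem (fun c => (V c).image (f3 ∘ g2)) hc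
    · rw [← mul_assoc, ← mul_assoc, ← mul_assoc, hεε]
    · rw [mul_assoc, hεε]
  by_contra hcon
  have key : ∀ Γ : Finset (α × α), Γ ⊆ A ×ˢ C → ∃ x, Z.Over x (rl Y Γ) ∧ Good x ∧ x * x = x ∧
      (d + 1) * Γ.card + 2 * n x ≤ 2 * n ε := by
    intro Γ
    induction Γ using Finset.induction_on with
    | empty => exact fun _ => ⟨ε, hε, hgε, hεε, by simp⟩
    | insert k Γ hk ih =>
      intro hsub
      have hΓ : Γ ⊆ A ×ˢ C := (Finset.subset_insert _ _).trans hsub
      obtain ⟨a, c⟩ := k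
      have hac := Finset.mem_product.1 (hsub (Finset.mem_insert_self _ _))
      dsimp only at hac
      have hk1 : ({(a, c)} : Finset (α × α)) ⊆ A ×ˢ C := by
        rw [Finset.singleton_subset_iff]; exact hsub (Finset.mem_insert_self _ _)
      obtain ⟨x, hx, hgx, hxx, hineq⟩ := ih hΓ
      obtain ⟨y, hyo, hgy⟩ := hy a hac.1 c hac.2
      obtain ⟨x', ⟨hx', hgx', h1, h2⟩, hxx'⟩ := exists_idem
        (fun z => Z.Over z (rl Y (insert (a, c) Γ)) ∧ Good z ∧ x * z = z ∧ z * x = z) (by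
          refine ⟨x * y * x, ?_, hgmul _ _ (hgmul _ _ hgx hgy) hgx, ?_, ?_⟩
          · have := Z.over_mul (Z.over_mul hx hyo) hx
            rw [rl_comp Y A C hA hC hAC _ _ hΓ hk1,
              rl_comp Y A C hA hC hAC _ _ (Finset.union_subset hΓ hk1) hΓ] at this
            convert this using 2
            ext z; simp only [Finset.mem_insert, Finset.mem_union, Finset.mem_singleton]; tauto
          · rw [← mul_assoc, ← mul_assoc, hxx]
          · rw [mul_assoc, hxx]) (by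
          rintro z z' ⟨h1, h2, h3, h4⟩ ⟨h5, h6, h7, h8⟩
          refine ⟨?_, hgmul _ _ h2 h6, ?_, ?_⟩
          · have := Z.over_mul h1 h5
            rwa [rl_comp Y A C hA hC hAC _ _ hsub hsub, Finset.union_self] at this
          · rw [← mul_assoc, h3]
          · rw [mul_assoc, h8])
      obtain ⟨B, hB, hBc⟩ := hch x x' _ _ hx hx' hgx hgx' hxx hxx' h1 h2
      refine ⟨x', hx', hgx', hxx', ?_⟩
      have hbig : d + 1 ≤ 2 * B.card := by
        by_contra hlt
        apply hcon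
        refine ⟨(Y \ A.erase a) \ C.erase c, B.card, ?_, by omega, x, x', B, a, c,
          rl ((Y \ A.erase a) \ C.erase c) ∅, rl ((Y \ A.erase a) \ C.erase c) ∅, _, _, ?_, ?_, ?_,
          hx, hx', hB, le_rfl, ?_, ?_⟩
        · have e1 := Finset.le_card_sdiff (A.erase a) Y
          have e2 := Finset.le_card_sdiff (C.erase c) (Y \ A.erase a)
          rw [Finset.card_erase_of_mem hac.1] at e1
          rw [Finset.card_erase_of_mem hac.2] at e2
          omega
        · have := Finset.disjoint_left.1 hAC hac.1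
          simp [hA hac.1, this]
        · have := Finset.disjoint_right.1 hAC hac.2
          simp [hC hac.2, this]
        · intro h; exact Finset.disjoint_left.1 hAC hac.1 (h ▸ hac.2)
        · rw [rl_sand]
          ext p q
          simp only [rl, Finset.mem_sdiff, Finset.mem_erase, Finset.notMem_empty, or_false]
          constructor
          · rintro ⟨h3, h4 | h4, h5⟩
            · exact ⟨h4.1, h3⟩
            · exfalso
              have h6 := Finset.mem_product.1 (hΓ h4)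
              dsimp only at h6
              have h7 : p = a := by by_contra h; exact h3.1.2 ⟨h, h6.1⟩
              have h8 : q = c := by by_contra h; exact h5.2 ⟨h, h6.2⟩
              exact hk (h7 ▸ h8 ▸ h4)
          · rintro ⟨rfl, h3⟩
            exact ⟨h3, Or.inl ⟨rfl, h3.1.1⟩, h3⟩
        · rw [rl_sand]
          ext p q
          have h4 := Finset.disjoint_left.1 hAC hac.1
          have h5 := Finset.disjoint_right.1 hAC hac.2
          have h6 := hA hac.1
          have h7 := hC hac.2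
          simp only [rl, Finset.mem_sdiff, Finset.mem_erase, Finset.mem_insert,
            Finset.mem_singleton]
          constructor
          · rintro ⟨h3, h8 | h8 | h8, h9⟩
            · exact Or.inl ⟨h8.1, h3⟩
            · exact Or.inr h8
            · have h6 := Finset.mem_product.1 (hΓ h8)
              dsimp only at h6
              have h7 : p = a := by by_contra h; exact h3.1.2 ⟨h, h6.1⟩
              have h8 : q = c := by by_contra h; exact h9.2 ⟨h, h6.2⟩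
              exact Or.inr (by rw [h7, h8])
          · rintro (⟨rfl, h3⟩ | h3)
            · exact ⟨h3, Or.inl ⟨rfl, h3.1.1⟩, h3⟩
            · obtain ⟨rfl, rfl⟩ := Prod.mk.inj h3
              exact ⟨⟨⟨h6, fun h => h.1 rfl⟩, fun h => h4 h.2⟩, Or.inr (Or.inl rfl),
                ⟨h7, fun h => h5 h.2⟩, fun h => h.1 rfl⟩
      rw [Finset.card_insert_of_notMem hk]
      nlinarith
  obtain ⟨x, -, -, -, hineq⟩ := key _ le_rfl
  rw [Finset.card_product, hAc, hCc] at hineq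
  omega

theorem main_ind (j : ℕ) : ∀ (X : Finset α) (d : ℕ), Z.P X d → 2 + 31 * j ≤ X.card → 2 ^ j ≤ d := by
  induction j with
  | zero => intro X d h _; simpa using Z.P_pos h
  | succ j ih =>
    intro X d h hX
    obtain ⟨X', d', h1, h2, h3⟩ := Z.step h (by omega)
    have := ih X' d' h3 (by omega)
    rw [pow_succ]; omega

include Z in
theorem bound [Fintype α] (h2 : 2 ≤ Fintype.card α) : 2 ^ ((Fintype.card α - 2) / 31) ≤ N := by
  obtain ⟨p, q, hpq⟩ := Fintype.exists_pair_of_one_lt_card (α := α) (by omega)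
  obtain ⟨x, hx⟩ := Z.over_surj (rl Finset.univ ∅)
  obtain ⟨y, hy⟩ := Z.over_surj (rl Finset.univ {(p, q)})
  obtain ⟨A, hA, hc⟩ := Z.cov_init x y _ _ hx hy
  refine Z.main_ind _ Finset.univ N ⟨x, y, A, p, q, rl Finset.univ ∅, rl Finset.univ ∅, _, _,
    Finset.mem_univ _, Finset.mem_univ _, hpq, hx, hy, hc, hA, ?_, ?_⟩ ?_
  · rw [rl_idem, rl_idem]
  · ext u v; simp only [Comp, rl]; grind
  · rw [Finset.card_univ]; omega

end Sys

end Crest.Agent.H0444
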