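import Mathlib

/-! Two-way behaviours: preorders on `T × Bool` (ports at the left / right cut) with gluing. -/

set_option autoImplicit false

namespace Crest.Agent.H0444

open Relation

variable {T : Type*}

/-- A block `m` with left context `l` and right context `r`. -/
def K (l : T → T → Prop) (m : T × Bool → T × Bool → Prop) (r : T → T → Prop) :
    T × Bool → T × Bool → Prop :=
  ReflTransGen fun u v => (u.2 = false ∧ v.2 = false ∧ l u.1 v.1) ∨ m u v ∨
    (u.2 = true ∧ v.2 = true ∧ r u.1 v.1)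

/-- empty context -/
def nil : T → T → Prop := fun _ _ => False

def rc (m : T × Bool → T × Bool → Prop) (r : T → T → Prop) : T → T → Prop :=
  fun a b => K nil m r (a, false) (b, false)

def lc (l : T → T → Prop) (m : T × Bool → T × Bool → Prop) : T → T → Prop :=
  fun a b => K l m nil (a, true) (b, true)

def e01 (u : T × Bool) : T × Fin 3 := (u.1, if u.2 then 1 else 0)
def e12 (u : T × Bool) : T × Fin 3 := (u.1, if u.2 then 2 else 1)
def e02 (u : T × Bool) : T × Fin 3 := (u.1, if u.2 then 2 else 0)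

/-- edges of the three-cut world -/
inductive E4 (l : T → T → Prop) (m1 m2 : T × Bool → T × Bool → Prop) (r : T → T → Prop) :
    T × Fin 3 → T × Fin 3 → Prop
  | left {a b : T} : l a b → E4 l m1 m2 r (a, 0) (b, 0)
  | fst {u v : T × Bool} : m1 u v → E4 l m1 m2 r (e01 u) (e01 v)
  | snd {u v : T × Bool} : m2 u v → E4 l m1 m2 r (e12 u) (e12 v)
  | right {a b : T} : r a b → E4 l m1 m2 r (a, 2) (b, 2)

def W4 (l : T → T → Prop) (m1 m2 : T × Bool → T × Bool → Prop) (r : T → T → Prop) :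
    T × Fin 3 → T × Fin 3 → Prop := ReflTransGen (E4 l m1 m2 r)

def gl (m1 m2 : T × Bool → T × Bool → Prop) : T × Bool → T × Bool → Prop :=
  fun u v => W4 nil m1 m2 nil (e02 u) (e02 v)

section basic
variable {l l' r r' : T → T → Prop} {m m' m1 m2 m1' m2' : T × Bool → T × Bool → Prop}

theorem K.refl (u : T × Bool) : K l m r u u := ReflTransGen.refl
theorem K.trans {u v w : T × Bool} (h1 : K l m r u v) (h2 : K l m r v w) : K l m r u w :=
  ReflTransGen.trans h1 h2
theorem K.of_m {u v : T × Bool} (h : m u v) : K l m r u v :=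
  ReflTransGen.single (Or.inr (Or.inl h))
theorem K.of_l {a b : T} (h : l a b) : K l m r (a, false) (b, false) :=
  ReflTransGen.single (Or.inl ⟨rfl, rfl, h⟩)
theorem K.of_r {a b : T} (h : r a b) : K l m r (a, true) (b, true) :=
  ReflTransGen.single (Or.inr (Or.inr ⟨rfl, rfl, h⟩))

/-- elimination principle for `K` -/
theorem K.ind {P : T × Bool → Prop} {u v : T × Bool} (h : K l m r u v) (h0 : P u)
    (hl : ∀ a b, l a b → P (a, false) → P (b, false))
    (hm : ∀ p q, m p q → P p → P q)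
    (hr : ∀ a b, r a b → P (a, true) → P (b, true)) : P v := by
  induction h with
  | refl => exact h0
  | @tail p q _ e ih =>
    obtain ⟨p1, p2⟩ := p
    obtain ⟨q1, q2⟩ := q
    rcases e with ⟨h1, h2, h3⟩ | h | ⟨h1, h2, h3⟩
    · dsimp only at h1 h2 h3; subst h1 h2; exact hl _ _ h3 ih
    · exact hm _ _ h ih
    · dsimp only at h1 h2 h3; subst h1 h2; exact hr _ _ h3 ih

theorem K.mono' {u v : T × Bool} (h : K l m r u v)
    (hl : ∀ a b, l a b → K l' m' r' (a, false) (b, false))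
    (hm : ∀ p q, m p q → K l' m' r' p q)
    (hr : ∀ a b, r a b → K l' m' r' (a, true) (b, true)) : K l' m' r' u v :=
  h.ind (P := fun w => K l' m' r' u w) (K.refl _) (fun _ _ e ih => ih.trans (hl _ _ e))
    (fun _ _ e ih => ih.trans (hm _ _ e)) (fun _ _ e ih => ih.trans (hr _ _ e))

theorem K.mono {u v : T × Bool} (h : K l m r u v) (hl : ∀ a b, l a b → l' a b)
    (hm : ∀ p q, m p q → m' p q) (hr : ∀ a b, r a b → r' a b) : K l' m' r' u v :=
  h.mono' (fun _ _ e => K.of_l (hl _ _ e)) (fun _ _ e => K.of_m (hm _ _ e))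
    (fun _ _ e => K.of_r (hr _ _ e))

theorem K.ctx {u v : T × Bool} (h : K l m r u v) (hl : ∀ a b, l a b → l' a b)
    (hr : ∀ a b, r a b → r' a b) : K l' m r' u v :=
  h.mono hl (fun _ _ e => e) hr

theorem nil_le (l : T → T → Prop) : ∀ a b, nil a b → l a b := fun _ _ h => h.elim

theorem W4.refl (u : T × Fin 3) : W4 l m1 m2 r u u := ReflTransGen.refl
theorem W4.trans {u v w : T × Fin 3} (h1 : W4 l m1 m2 r u v) (h2 : W4 l m1 m2 r v w) :
    W4 l m1 m2 r u w := ReflTransGen.trans h1 h2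

theorem W4.ind {P : T × Fin 3 → Prop} {u v : T × Fin 3} (h : W4 l m1 m2 r u v) (h0 : P u)
    (hl : ∀ a b, l a b → P (a, 0) → P (b, 0))
    (h1 : ∀ p q, m1 p q → P (e01 p) → P (e01 q))
    (h2 : ∀ p q, m2 p q → P (e12 p) → P (e12 q))
    (hr : ∀ a b, r a b → P (a, 2) → P (b, 2)) : P v := by
  induction h with
  | refl => exact h0
  | tail _ e ih =>
    cases e with
    | left e => exact hl _ _ e ih
    | fst e => exact h1 _ _ e ih
    | snd e => exact h2 _ _ e ih
    | right e => exact hr _ _ e ih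

theorem W4.mono {u v : T × Fin 3} (h : W4 l m1 m2 r u v) (hl : ∀ a b, l a b → l' a b)
    (h1 : ∀ p q, m1 p q → m1' p q) (h2 : ∀ p q, m2 p q → m2' p q) (hr : ∀ a b, r a b → r' a b) :
    W4 l' m1' m2' r' u v :=
  h.ind (P := fun w => W4 l' m1' m2' r' u w) (W4.refl _)
    (fun _ _ e ih => ih.tail (E4.left (hl _ _ e))) (fun _ _ e ih => ih.tail (E4.fst (h1 _ _ e)))
    (fun _ _ e ih => ih.tail (E4.snd (h2 _ _ e))) (fun _ _ e ih => ih.tail (E4.right (hr _ _ e)))

theorem W4.of12' {u v : T × Bool} (h : K nil m2 r u v) : W4 l m1 m2 r (e12 u) (e12 v) :=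
  h.ind (P := fun w => W4 l m1 m2 r (e12 u) (e12 w)) (W4.refl _) (fun _ _ e => e.elim)
    (fun _ _ e ih => ih.tail (E4.snd e)) (fun _ _ e ih => ih.tail (E4.right e))

theorem W4.of01' {u v : T × Bool} (h : K l m1 nil u v) : W4 l m1 m2 r (e01 u) (e01 v) :=
  h.ind (P := fun w => W4 l m1 m2 r (e01 u) (e01 w)) (W4.refl _)
    (fun _ _ e ih => ih.tail (E4.left e))
    (fun _ _ e ih => ih.tail (E4.fst e)) (fun _ _ e => e.elim)

theorem W4.of01 {u v : T × Bool} (h : K l m1 (rc m2 r) u v) : W4 l m1 m2 r (e01 u) (e01 v) :=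
  h.ind (P := fun w => W4 l m1 m2 r (e01 u) (e01 w)) (W4.refl _)
    (fun _ _ e ih => ih.tail (E4.left e))
    (fun _ _ e ih => ih.tail (E4.fst e)) (fun _ _ e ih => ih.trans (W4.of12' e))

theorem W4.of12 {u v : T × Bool} (h : K (lc l m1) m2 r u v) : W4 l m1 m2 r (e12 u) (e12 v) :=
  h.ind (P := fun w => W4 l m1 m2 r (e12 u) (e12 w)) (W4.refl _)
    (fun _ _ e ih => ih.trans (W4.of01' e))
    (fun _ _ e ih => ih.tail (E4.snd e)) (fun _ _ e ih => ih.tail (E4.right e))

theorem W4.of02 {u v : T × Bool} (h : K l (gl m1 m2) r u v) : W4 l m1 m2 r (e02 u) (e02 v) :=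
  h.ind (P := fun w => W4 l m1 m2 r (e02 u) (e02 w)) (W4.refl _)
    (fun _ _ e ih => ih.tail (E4.left e))
    (fun _ _ e ih => ih.trans (W4.mono e (nil_le _) (fun _ _ h => h) (fun _ _ h => h) (nil_le _)))
    (fun _ _ e ih => ih.tail (E4.right e))

theorem W4.to02 {u v : T × Bool} (h : W4 l m1 m2 r (e02 u) (e02 v)) : K l (gl m1 m2) r u v := by
  have key : ∀ w, W4 l m1 m2 r (e02 u) w →
      ∃ p, K l (gl m1 m2) r u p ∧ W4 nil m1 m2 nil (e02 p) w := by
    intro w hw
    refine hw.ind (P := fun w => ∃ p, K l (gl m1 m2) r u p ∧ W4 nil m1 m2 nil (e02 p) w)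
      ⟨u, K.refl _, W4.refl _⟩ ?_ ?_ ?_ ?_
    · rintro a b e ⟨p, h1, h2⟩
      exact ⟨(b, false), (h1.trans (K.of_m (v := (a, false)) h2)).trans (K.of_l e), W4.refl _⟩
    · rintro a b e ⟨p, h1, h2⟩
      exact ⟨p, h1, h2.tail (E4.fst e)⟩
    · rintro a b e ⟨p, h1, h2⟩
      exact ⟨p, h1, h2.tail (E4.snd e)⟩
    · rintro a b e ⟨p, h1, h2⟩
      exact ⟨(b, true), (h1.trans (K.of_m (v := (a, true)) h2)).trans (K.of_r e), W4.refl _⟩
  obtain ⟨p, h1, h2⟩ := key _ h
  exact h1.trans (K.of_m h2)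

theorem W4.to01 {u v : T × Bool} (h : W4 l m1 m2 r (e01 u) (e01 v)) : K l m1 (rc m2 r) u v := by
  have key : ∀ w, W4 l m1 m2 r (e01 u) w →
      (w.2 = 0 → K l m1 (rc m2 r) u (w.1, false)) ∧ (w.2 = 1 → K l m1 (rc m2 r) u (w.1, true)) ∧
      (w.2 = 2 → ∃ c, K l m1 (rc m2 r) u (c, true) ∧ K nil m2 r (c, false) (w.1, true)) := by
    intro w hw
    refine hw.ind (P := fun w => (w.2 = 0 → K l m1 (rc m2 r) u (w.1, false)) ∧
      (w.2 = 1 → K l m1 (rc m2 r) u (w.1, true)) ∧
      (w.2 = 2 → ∃ c, K l m1 (rc m2 r) u (c, true) ∧ K nil m2 r (c, false) (w.1, true)))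
      ?_ ?_ ?_ ?_ ?_
    · obtain ⟨a, s⟩ := u
      cases s <;> simp [e01, K.refl]
    · rintro a b e ⟨h1, -, -⟩
      exact ⟨fun _ => (h1 rfl).trans (K.of_l e), by simp, by simp⟩
    · rintro ⟨a, s⟩ ⟨b, t⟩ e ⟨h1, h2, -⟩
      have : K l m1 (rc m2 r) u (a, s) := by
        cases s
        · exact h1 rfl
        · exact h2 rfl
      have := this.trans (K.of_m e)
      cases t <;> simp [e01, this]
    · rintro ⟨a, s⟩ ⟨b, t⟩ e ⟨-, h2, h3⟩
      have : ∃ c, K l m1 (rc m2 r) u (c, true) ∧ K nil m2 r (c, false) (b, t) := by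
        cases s
        · exact ⟨a, h2 rfl, K.of_m e⟩
        · obtain ⟨c, h4, h5⟩ := h3 rfl
          exact ⟨c, h4, h5.trans (K.of_m e)⟩
      obtain ⟨c, h4, h5⟩ := this
      cases t
      · exact ⟨by simp [e12], fun _ => h4.trans (K.of_r h5), by simp [e12]⟩
      · exact ⟨by simp [e12], by simp [e12], fun _ => ⟨c, h4, h5⟩⟩
    · rintro a b e ⟨-, -, h3⟩
      obtain ⟨c, h4, h5⟩ := h3 rfl
      exact ⟨by simp, by simp, fun _ => ⟨c, h4, h5.trans (K.of_r e)⟩⟩
  obtain ⟨h1, h2, -⟩ := key _ h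
  obtain ⟨b, t⟩ := v
  cases t
  · exact h1 rfl
  · exact h2 rfl

theorem W4.to12 {u v : T × Bool} (h : W4 l m1 m2 r (e12 u) (e12 v)) : K (lc l m1) m2 r u v := by
  have key : ∀ w, W4 l m1 m2 r (e12 u) w →
      (w.2 = 2 → K (lc l m1) m2 r u (w.1, true)) ∧ (w.2 = 1 → K (lc l m1) m2 r u (w.1, false)) ∧
      (w.2 = 0 → ∃ c, K (lc l m1) m2 r u (c, false) ∧ K l m1 nil (c, true) (w.1, false)) := by
    intro w hw
    refine hw.ind (P := fun w => (w.2 = 2 → K (lc l m1) m2 r u (w.1, true)) ∧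
      (w.2 = 1 → K (lc l m1) m2 r u (w.1, false)) ∧
      (w.2 = 0 → ∃ c, K (lc l m1) m2 r u (c, false) ∧ K l m1 nil (c, true) (w.1, false)))
      ?_ ?_ ?_ ?_ ?_
    · obtain ⟨a, s⟩ := u
      cases s <;> simp [e12, K.refl]
    · rintro a b e ⟨-, -, h3⟩
      obtain ⟨c, h4, h5⟩ := h3 rfl
      exact ⟨by simp, by simp, fun _ => ⟨c, h4, h5.trans (K.of_l e)⟩⟩
    · rintro ⟨a, s⟩ ⟨b, t⟩ e ⟨-, h2, h3⟩
      have : ∃ c, K (lc l m1) m2 r u (c, false) ∧ K l m1 nil (c, true) (b, t) := by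
        cases s
        · obtain ⟨c, h4, h5⟩ := h3 rfl
          exact ⟨c, h4, h5.trans (K.of_m e)⟩
        · exact ⟨a, h2 rfl, K.of_m e⟩
      obtain ⟨c, h4, h5⟩ := this
      cases t
      · exact ⟨by simp [e01], by simp [e01], fun _ => ⟨c, h4, h5⟩⟩
      · exact ⟨by simp [e01], fun _ => h4.trans (K.of_l h5), by simp [e01]⟩
    · rintro ⟨a, s⟩ ⟨b, t⟩ e ⟨h1, h2, -⟩
      have : K (lc l m1) m2 r u (a, s) := by
        cases s
        · exact h2 rfl
        · exact h1 rfl
      have := this.trans (K.of_m e)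
      cases t <;> simp [e12, this]
    · rintro a b e ⟨h1, -, -⟩
      exact ⟨fun _ => (h1 rfl).trans (K.of_r e), by simp, by simp⟩
  obtain ⟨h1, h2, -⟩ := key _ h
  obtain ⟨b, t⟩ := v
  cases t
  · exact h2 rfl
  · exact h1 rfl

/-- composition of two rightward crossings -/
theorem T1 {a b c : T} (h1 : K l m1 (rc m2 r) (a, false) (c, true))
    (h2 : K (lc l m1) m2 r (c, false) (b, true)) : K l (gl m1 m2) r (a, false) (b, true) :=
  W4.to02 ((W4.of01 h1).trans (W4.of12 h2))

/-- decomposition of a rightward crossing -/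
theorem T2 {a b : T} (h : K l (gl m1 m2) r (a, false) (b, true)) :
    ∃ c, K l m1 (rc m2 r) (a, false) (c, true) ∧ K (lc l m1) m2 r (c, false) (b, true) := by
  have h' := W4.of02 h
  have key : ∀ w, W4 l m1 m2 r (a, 0) w → w.2 = 0 ∨
      ∃ c, W4 l m1 m2 r (a, 0) (c, 1) ∧ W4 l m1 m2 r (c, 1) w := by
    intro w hw
    induction hw with
    | refl => exact Or.inl rfl
    | @tail p q hp e ih =>
      rcases ih with h0 | ⟨c, h1, h2⟩
      · cases e with
        | left e => exact Or.inl rfl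
        | @fst u v e =>
          obtain ⟨v1, v2⟩ := v
          cases v2
          · exact Or.inl rfl
          · exact Or.inr ⟨v1, ReflTransGen.tail hp (E4.fst e), W4.refl _⟩
        | @snd u v e =>
          obtain ⟨u1, u2⟩ := u
          cases u2 <;> simp [e12] at h0
        | right e => simp at h0
      · exact Or.inr ⟨c, h1, h2.tail e⟩
  rcases key _ h' with h0 | ⟨c, h1, h2⟩
  · simp [e02] at h0
  · exact ⟨c, W4.to01 (u := (a, false)) (v := (c, true)) h1,
      W4.to12 (u := (c, false)) (v := (b, true)) h2⟩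

theorem K00_iff {a b : T} :
    K l (gl m1 m2) r (a, false) (b, false) ↔ K l m1 (rc m2 r) (a, false) (b, false) :=
  ⟨fun h => W4.to01 (u := (a, false)) (v := (b, false)) (W4.of02 h),
    fun h => W4.to02 (u := (a, false)) (v := (b, false)) (W4.of01 h)⟩

theorem K11_iff {a b : T} :
    K l (gl m1 m2) r (a, true) (b, true) ↔ K (lc l m1) m2 r (a, true) (b, true) :=
  ⟨fun h => W4.to12 (u := (a, true)) (v := (b, true)) (W4.of02 h),
    fun h => W4.to02 (u := (a, true)) (v := (b, true)) (W4.of12 h)⟩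

theorem rc_gl : rc (gl m1 m2) r = rc m1 (rc m2 r) := by
  ext a b; exact K00_iff

theorem lc_gl : lc l (gl m1 m2) = lc (lc l m1) m2 := by
  ext a b; exact K11_iff

/-- a crossing path contains a crossing edge -/
theorem K.cross {a b : T} (h : K l m r (a, false) (b, true)) :
    ∃ c c', K l m r (a, false) (c, false) ∧ m (c, false) (c', true) ∧ K l m r (c', true) (b, true) := by
  have key : ∀ w, K l m r (a, false) w → w.2 = false ∨
      ∃ c c', K l m r (a, false) (c, false) ∧ m (c, false) (c', true) ∧ K l m r (c', true) w := by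
    intro w hw
    induction hw with
    | refl => exact Or.inl rfl
    | @tail p q hp e ih =>
      rcases ih with h0 | ⟨c, c', h1, h2, h3⟩
      · obtain ⟨p1, p2⟩ := p
        obtain ⟨q1, q2⟩ := q
        dsimp only at h0; subst h0
        cases q2
        · exact Or.inl rfl
        · rcases e with ⟨-, h2, -⟩ | e | ⟨h1, -, -⟩
          · simp at h2
          · exact Or.inr ⟨p1, q1, hp, e, K.refl _⟩
          · simp at h1
      · exact Or.inr ⟨c, c', h1, h2, ReflTransGen.tail h3 e⟩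
  rcases key _ h with h0 | h1
  · simp at h0
  · exact h1

/-- same-cut relation on the left cut -/
theorem K00_rtg {a b : T} : K l m r (a, false) (b, false) ↔
    ReflTransGen (fun p q => l p q ∨ rc m r p q) a b := by
  constructor
  · intro h
    have key : ∃ c, ReflTransGen (fun p q => l p q ∨ rc m r p q) a c ∧
        K nil m r (c, false) (b, false) := by
      refine h.ind (P := fun w => ∃ c, ReflTransGen (fun p q => l p q ∨ rc m r p q) a c ∧
        K nil m r (c, false) w) ⟨a, ReflTransGen.refl, K.refl _⟩ ?_ ?_ ?_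
      · rintro p q e ⟨c, h1, h2⟩
        exact ⟨q, (h1.tail (Or.inr h2)).tail (Or.inl e), K.refl _⟩
      · rintro p q e ⟨c, h1, h2⟩
        exact ⟨c, h1, h2.trans (K.of_m e)⟩
      · rintro p q e ⟨c, h1, h2⟩
        exact ⟨c, h1, h2.trans (K.of_r e)⟩
    obtain ⟨c, h1, h2⟩ := key
    exact h1.tail (Or.inr h2)
  · intro h
    induction h with
    | refl => exact K.refl _
    | tail _ e ih =>
      rcases e with e | e
      · exact ih.trans (K.of_l e)
      · exact ih.trans (K.ctx e (nil_le _) (fun _ _ h => h))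

theorem K11_rtg {a b : T} : K l m r (a, true) (b, true) ↔
    ReflTransGen (fun p q => lc l m p q ∨ r p q) a b := by
  constructor
  · intro h
    have key : ∃ c, ReflTransGen (fun p q => lc l m p q ∨ r p q) a c ∧
        K l m nil (c, true) (b, true) := by
      refine h.ind (P := fun w => ∃ c, ReflTransGen (fun p q => lc l m p q ∨ r p q) a c ∧
        K l m nil (c, true) w) ⟨a, ReflTransGen.refl, K.refl _⟩ ?_ ?_ ?_
      · rintro p q e ⟨c, h1, h2⟩
        exact ⟨c, h1, h2.trans (K.of_l e)⟩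
      · rintro p q e ⟨c, h1, h2⟩
        exact ⟨c, h1, h2.trans (K.of_m e)⟩
      · rintro p q e ⟨c, h1, h2⟩
        exact ⟨q, (h1.tail (Or.inl h2)).tail (Or.inr e), K.refl _⟩
    obtain ⟨c, h1, h2⟩ := key
    exact h1.tail (Or.inl h2)
  · intro h
    induction h with
    | refl => exact K.refl _
    | tail _ e ih =>
      rcases e with e | e
      · exact ih.trans (K.ctx e (fun _ _ h => h) (nil_le _))
      · exact ih.trans (K.of_r e)

end basic

/-- mirror of ports -/
def sw (u : T × Bool) : T × Bool := (u.1, !u.2)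

@[simp] theorem sw_sw (u : T × Bool) : sw (sw u) = u := by simp [sw]

def mirR (m : T × Bool → T × Bool → Prop) : T × Bool → T × Bool → Prop :=
  fun u v => m (sw u) (sw v)

theorem mirR_mirR (m : T × Bool → T × Bool → Prop) : mirR (mirR m) = m := by
  ext u v; simp [mirR]

theorem gl_mir_aux {m1 m2 : T × Bool → T × Bool → Prop} {u v : T × Bool}
    (h : gl m1 m2 u v) : gl (mirR m2) (mirR m1) (sw u) (sw v) := by
  let f : T × Fin 3 → T × Fin 3 := fun w => (w.1, w.2.rev)
  have f02 : ∀ p : T × Bool, f (e02 p) = e02 (sw p) := by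
    rintro ⟨a, s⟩; cases s <;> rfl
  have f01 : ∀ p : T × Bool, f (e01 p) = e12 (sw p) := by
    rintro ⟨a, s⟩; cases s <;> rfl
  have f12 : ∀ p : T × Bool, f (e12 p) = e01 (sw p) := by
    rintro ⟨a, s⟩; cases s <;> rfl
  unfold gl at h ⊢
  rw [← f02, ← f02]
  refine h.ind (P := fun w => W4 nil (mirR m2) (mirR m1) nil (f (e02 u)) (f w)) (W4.refl _)
    (fun _ _ e => e.elim) ?_ ?_ (fun _ _ e => e.elim)
  · intro p q e ih
    rw [f01] at ih ⊢
    exact ih.tail (E4.snd (by simpa [mirR] using e))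
  · intro p q e ih
    rw [f12] at ih ⊢
    exact ih.tail (E4.fst (by simpa [mirR] using e))

theorem mirR_gl (m1 m2 : T × Bool → T × Bool → Prop) :
    mirR (gl m1 m2) = gl (mirR m2) (mirR m1) := by
  ext u v
  constructor
  · intro h; simpa using gl_mir_aux h
  · intro h
    have := gl_mir_aux h
    rwa [mirR_mirR, mirR_mirR] at this

/-- behaviours -/
@[ext] structure Beh (T : Type*) where
  rel : T × Bool → T × Bool → Prop
  refl : ∀ u, rel u u
  trans : ∀ {u v w}, rel u v → rel v w → rel u w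

namespace Beh

instance [Finite T] : Finite (Beh T) :=
  Finite.of_injective Beh.rel (fun _ _ h => Beh.ext h)

instance : Mul (Beh T) :=
  ⟨fun x y => ⟨gl x.rel y.rel, fun _ => W4.refl _, fun h1 h2 => W4.trans h1 h2⟩⟩

theorem mul_rel (x y : Beh T) : (x * y).rel = gl x.rel y.rel := rfl

theorem K_nil (x : Beh T) {u v : T × Bool} : K nil x.rel nil u v ↔ x.rel u v :=
  ⟨fun h => h.ind (P := fun w => x.rel u w) (x.refl _) (fun _ _ e => e.elim)
    (fun _ _ e ih => x.trans ih e) (fun _ _ e => e.elim), K.of_m⟩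

def mir (x : Beh T) : Beh T := ⟨mirR x.rel, fun _ => x.refl _, fun h1 h2 => x.trans h1 h2⟩

theorem mir_mul (x y : Beh T) : (x * y).mir = y.mir * x.mir := Beh.ext (mirR_gl _ _)

@[simp] theorem mir_mir (x : Beh T) : x.mir.mir = x := Beh.ext (mirR_mirR _)

/-- left reflection -/
def r0 (x : Beh T) : T → T → Prop := fun a b => x.rel (a, false) (b, false)
/-- right reflection -/
def r1 (x : Beh T) : T → T → Prop := fun a b => x.rel (a, true) (b, true)

theorem rc_nil (x : Beh T) : rc x.rel nil = x.r0 := by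
  ext a b; exact x.K_nil

theorem lc_nil (x : Beh T) : lc nil x.rel = x.r1 := by
  ext a b; exact x.K_nil

theorem r0_mul (x y : Beh T) : (x * y).r0 = rc x.rel y.r0 := by
  rw [← rc_nil, mul_rel, rc_gl, rc_nil]

theorem r1_mul (x y : Beh T) : (x * y).r1 = lc x.r1 y.rel := by
  rw [← lc_nil, mul_rel, lc_gl, lc_nil]

theorem assoc01 (x y z : Beh T) (a b : T) :
    (x * y * z).rel (a, false) (b, true) ↔ (x * (y * z)).rel (a, false) (b, true) := by
  rw [← K_nil, ← K_nil]
  constructor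
  · intro h
    obtain ⟨c, h1, h2⟩ := T2 h
    obtain ⟨c', h3, h4⟩ := T2 h1
    refine T1 (c := c') ?_ (T1 (c := c) h4 ?_)
    · rwa [mul_rel, rc_gl]
    · rwa [mul_rel, lc_gl] at h2
  · intro h
    obtain ⟨c, h1, h2⟩ := T2 h
    obtain ⟨c', h3, h4⟩ := T2 h2
    refine T1 (c := c') (T1 (c := c) ?_ h3) ?_
    · rwa [mul_rel, rc_gl] at h1
    · rwa [mul_rel, lc_gl]

instance : Semigroup (Beh T) where
  mul_assoc x y z := by
    ext ⟨a, s⟩ ⟨b, t⟩
    cases s <;> cases t
    · change (x * y * z).r0 a b ↔ (x * (y * z)).r0 a b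
      rw [r0_mul, r0_mul, r0_mul, mul_rel, rc_gl]
    · exact assoc01 x y z a b
    · have := assoc01 z.mir y.mir x.mir a b
      rw [← mir_mul, ← mir_mul, ← mir_mul, ← mir_mul] at this
      exact this.symm
    · change (x * y * z).r1 a b ↔ (x * (y * z)).r1 a b
      rw [r1_mul, r1_mul, r1_mul, mul_rel, lc_gl]

theorem r0_le_mul (x y : Beh T) : ∀ a b, x.r0 a b → (x * y).r0 a b := by
  intro a b h; rw [r0_mul]; exact K.of_m h

theorem r1_le_mul (x y : Beh T) : ∀ a b, y.r1 a b → (x * y).r1 a b := by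
  intro a b h; rw [r1_mul]; exact K.of_m h

theorem mul_mono {x y x' y' : Beh T} (h1 : ∀ u v, x.rel u v → x'.rel u v)
    (h2 : ∀ u v, y.rel u v → y'.rel u v) : ∀ u v, (x * y).rel u v → (x' * y').rel u v :=
  fun _ _ h => W4.mono h (fun _ _ h => h) h1 h2 (fun _ _ h => h)

/-- symmetric behaviours -/
def Sym (x : Beh T) : Prop := ∀ u v, x.rel u v → x.rel v u

theorem W4_symm {x y : Beh T} (hx : x.Sym) (hy : y.Sym) {u v : T × Fin 3}
    (h : W4 nil x.rel y.rel nil u v) : W4 nil x.rel y.rel nil v u :=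
  h.ind (P := fun w => W4 nil x.rel y.rel nil w u) (W4.refl _) (fun _ _ e => e.elim)
    (fun _ _ e ih => ReflTransGen.head (E4.fst (hx _ _ e)) ih)
    (fun _ _ e ih => ReflTransGen.head (E4.snd (hy _ _ e)) ih) (fun _ _ e => e.elim)

theorem Sym.mul {x y : Beh T} (hx : x.Sym) (hy : y.Sym) : (x * y).Sym :=
  fun _ _ h => W4_symm hx hy h

end Beh

theorem K_symm {l r : T → T → Prop} {m : T × Bool → T × Bool → Prop}
    (hl : ∀ a b, l a b → l b a) (hm : ∀ u v, m u v → m v u) (hr : ∀ a b, r a b → r b a)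
    {u v : T × Bool} (h : K l m r u v) : K l m r v u :=
  h.ind (P := fun w => K l m r w u) (K.refl _) (fun _ _ e ih => (K.of_l (hl _ _ e)).trans ih)
    (fun _ _ e ih => (K.of_m (hm _ _ e)).trans ih) (fun _ _ e ih => (K.of_r (hr _ _ e)).trans ih)

end Crest.Agent.H0444
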