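import Crest.Agent.H0444.Beh

/-! Through-classes of idempotent behaviours. -/

set_option autoImplicit false

namespace Crest.Agent.H0444

open Relation Beh

theorem idem_rel_reg {T : Type*} [Finite T] (τ : T → T → Prop)
    (ht : ∀ a b c, τ a b → τ b c → τ a c) (hd : ∀ a b, τ a b → ∃ c, τ a c ∧ τ c b) {a b : T}
    (h : τ a b) : ∃ r, τ a r ∧ τ r r ∧ τ r b := by
  obtain ⟨c, ⟨h1, h2⟩, hmin⟩ := Set.exists_min_image {c | τ a c ∧ τ c b}
    (fun c => Set.ncard {z | τ z c}) (Set.toFinite _) (hd a b h)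
  obtain ⟨c', h3, h4⟩ := hd a c h1
  have hsub : {z | τ z c'} ⊆ {z | τ z c} := fun z hz => ht _ _ _ hz h4
  have heq := Set.eq_of_subset_of_ncard_le hsub (hmin c' ⟨h3, ht _ _ _ h4 h2⟩) (Set.toFinite _)
  have : c' ∈ {z | τ z c'} := by rw [heq]; exact h4
  exact ⟨c', h3, this, ht _ _ _ h4 h2⟩

theorem count_lemma {T β γ : Type*} [Finite T] (q : T → β) (q' : T → γ) (D D' B : Set T)
    (hB : B ⊆ D) (h1 : ∀ a ∈ D', ∃ r ∈ D, r ∈ D' ∧ q' r = q' a)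
    (h2 : ∀ r r2, r ∈ D → r2 ∈ D → r ∈ D' → q r = q r2 → r2 ∈ D' ∧ q' r2 = q' r)
    (h3 : ∀ r ∈ B, r ∈ D' → ∃ r' ∈ D, r' ∈ D' ∧ q' r' = q' r ∧ q r' ≠ q r) :
    (q '' B).ncard + 2 * (q' '' D').ncard ≤ 2 * (q '' D).ncard := by
  classical
  rcases isEmpty_or_nonempty T with hT | hT
  · have e1 : B = ∅ := Set.eq_empty_of_isEmpty _
    have e2 : D' = ∅ := Set.eq_empty_of_isEmpty _
    simp [e1, e2]
  have hs : ∀ ρ : γ, ∃ r, ρ ∈ q' '' D' → r ∈ D ∧ r ∈ D' ∧ q' r = ρ := by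
    intro ρ
    by_cases hρ : ρ ∈ q' '' D'
    · obtain ⟨a, ha, rfl⟩ := hρ
      obtain ⟨r, hr⟩ := h1 a ha
      exact ⟨r, fun _ => hr⟩
    · exact ⟨Classical.arbitrary T, fun h => (hρ h).elim⟩
  choose s hs using hs
  set P' := q' '' D' with hP'
  set PB := {ρ ∈ P' | q (s ρ) ∈ q '' B} with hPB
  have hs2 : ∀ ρ : γ, ∃ r, ρ ∈ PB → r ∈ D ∧ r ∈ D' ∧ q' r = ρ ∧ q r ≠ q (s ρ) := by
    intro ρ
    by_cases hρ : ρ ∈ PB
    · obtain ⟨hρ1, r, hr, hqr⟩ := hρ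
      obtain ⟨a1, a2, a3⟩ := hs ρ hρ1
      obtain ⟨b1, b2⟩ := h2 (s ρ) r a1 (hB hr) a2 hqr.symm
      obtain ⟨r', c1, c2, c3, c4⟩ := h3 r hr b1
      exact ⟨r', fun _ => ⟨c1, c2, by rw [c3, b2, a3], by rw [← hqr]; exact c4⟩⟩
    · exact ⟨Classical.arbitrary T, fun h => (hρ h).elim⟩
  choose s2 hs2 using hs2
  have hfinP : (q '' D).Finite := (Set.toFinite _).image _
  have hfinP' : P'.Finite := (Set.toFinite _).image _
  have hfinPB : PB.Finite := hfinP'.subset (fun _ h => h.1)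
  have inj1 : Set.InjOn (fun ρ => q (s ρ)) P' := by
    intro ρ hρ ρ' hρ' h
    obtain ⟨a1, a2, a3⟩ := hs ρ hρ
    obtain ⟨b1, b2, b3⟩ := hs ρ' hρ'
    rw [← a3, ← b3]; exact (h2 _ _ a1 b1 a2 h).2.symm
  have inj2 : Set.InjOn (fun ρ => q (s2 ρ)) PB := by
    intro ρ hρ ρ' hρ' h
    obtain ⟨a1, a2, a3, -⟩ := hs2 ρ hρ
    obtain ⟨b1, b2, b3, -⟩ := hs2 ρ' hρ'
    rw [← a3, ← b3]; exact (h2 _ _ a1 b1 a2 h).2.symm
  set S1 := (fun ρ => q (s ρ)) '' P' with hS1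
  set S2 := (fun ρ => q (s2 ρ)) '' PB with hS2
  have c1 : S1.ncard = P'.ncard := inj1.ncard_image
  have c2 : S2.ncard = PB.ncard := inj2.ncard_image
  have sub1 : S1 ⊆ q '' D := by
    rintro _ ⟨ρ, hρ, rfl⟩; exact ⟨_, (hs ρ hρ).1, rfl⟩
  have sub2 : S2 ⊆ q '' D \ S1 := by
    rintro _ ⟨ρ, hρ, rfl⟩
    obtain ⟨a1, a2, a3, a4⟩ := hs2 ρ hρ
    refine ⟨⟨_, a1, rfl⟩, ?_⟩
    rintro ⟨ρ', hρ', h⟩
    obtain ⟨b1, b2, b3⟩ := hs ρ' hρ'
    have : ρ' = ρ := by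
      rw [← a3, ← b3]; exact (h2 _ _ b1 a1 b2 h).2.symm
    subst this
    exact a4 h.symm
  have c3 : (q '' D \ S1).ncard + S1.ncard = (q '' D).ncard :=
    Set.ncard_sdiff_add_ncard_of_subset sub1 hfinP
  have c4 : S2.ncard ≤ (q '' D \ S1).ncard := Set.ncard_le_ncard sub2 hfinP.sdiff
  have sub3 : q '' B ⊆ (q '' D \ S1) ∪ (fun ρ => q (s ρ)) '' PB := by
    rintro _ ⟨r, hr, rfl⟩
    by_cases h : q r ∈ S1
    · obtain ⟨ρ, hρ, h⟩ := h
      exact Or.inr ⟨ρ, ⟨hρ, r, hr, h.symm⟩, h⟩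
    · exact Or.inl ⟨⟨r, hB hr, rfl⟩, h⟩
  have c5 := Set.ncard_le_ncard sub3 (hfinP.sdiff.union (hfinPB.image _))
  have c6 := Set.ncard_union_le (q '' D \ S1) ((fun ρ => q (s ρ)) '' PB)
  have c7 : ((fun ρ => q (s ρ)) '' PB).ncard ≤ PB.ncard := Set.ncard_image_le hfinPB
  omega

variable {T : Type*}

/-- crossing `y` rightwards in the context `x | y | x` -/
def tau (x y : Beh T) (a b : T) : Prop := K x.r1 y.rel x.r0 (a, false) (b, true)
def alpha (x : Beh T) (a r : T) : Prop := K nil x.rel x.r0 (a, false) (r, true)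
def beta (x : Beh T) (r b : T) : Prop := K x.r1 x.rel nil (r, false) (b, true)
def eqv (x : Beh T) (a b : T) : Prop := tau x x a b ∧ tau x x b a
def cls (x : Beh T) (a : T) : Set T := {b | eqv x a b}
/-- same-cut relation -/
def sc (x : Beh T) : T → T → Prop := ReflTransGen (fun p q => x.r1 p q ∨ x.r0 p q)

theorem le0 {x y : Beh T} (h : x * y = y) : ∀ a b, x.r0 a b → y.r0 a b := by
  intro a b e; rw [← h]; exact r0_le_mul x y a b e

theorem le1 {x y : Beh T} (h : y * x = y) : ∀ a b, x.r1 a b → y.r1 a b := by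
  intro a b e; rw [← h]; exact r1_le_mul y x a b e

theorem rc_eq {x y z : Beh T} (h : x * y = z) : rc x.rel y.r0 = z.r0 := by rw [← r0_mul, h]
theorem lc_eq {x y z : Beh T} (h : x * y = z) : lc x.r1 y.rel = z.r1 := by rw [← r1_mul, h]
theorem gl_eq {x y z : Beh T} (h : x * y = z) : gl x.rel y.rel = z.rel := by rw [← mul_rel, h]

section
variable {x y : Beh T} {a b c : T}

theorem tau_l (hxx : x * x = x) (hxy : x * y = y) (hyx : y * x = y) (h1 : tau x x a c)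
    (h2 : tau x y c b) : tau x y a b := by
  unfold tau; rw [← gl_eq hxy]
  refine T1 (c := c) ?_ ?_
  · rw [rc_eq hyx]; exact K.ctx h1 (fun _ _ h => h) (le0 hxy)
  · rw [lc_eq hxx]; exact h2

theorem tau_r (hxx : x * x = x) (hxy : x * y = y) (hyx : y * x = y) (h1 : tau x y a c)
    (h2 : tau x x c b) : tau x y a b := by
  unfold tau; rw [← gl_eq hyx]
  refine T1 (c := c) ?_ ?_
  · rw [rc_eq hxx]; exact h1
  · rw [lc_eq hxy]; exact K.ctx h2 (le1 hyx) (fun _ _ h => h)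

theorem tau_trans (hxx : x * x = x) (h1 : tau x x a c) (h2 : tau x x c b) : tau x x a b :=
  tau_l hxx hxx hxx h1 h2

theorem tau_BA (hyy : y * y = y) (hxy : x * y = y) (hyx : y * x = y) (h1 : tau y y a c)
    (h2 : tau y x c b) : tau y y a b := by
  unfold tau; nth_rewrite 2 [← hyx]; rw [mul_rel]
  refine T1 (c := c) ?_ ?_
  · rw [rc_eq hxy]; exact h1
  · rw [lc_eq hyy]; exact h2

theorem tau_AB (hyy : y * y = y) (hxy : x * y = y) (hyx : y * x = y) (h1 : tau y x a c)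
    (h2 : tau y y c b) : tau y y a b := by
  unfold tau; nth_rewrite 2 [← hxy]; rw [mul_rel]
  refine T1 (c := c) ?_ ?_
  · rw [rc_eq hyy]; exact h1
  · rw [lc_eq hyx]; exact h2

theorem tau_ctx {z : Beh T} (hxy : x * y = y) (hyx : y * x = y) (h : tau x z a b) : tau y z a b :=
  K.ctx h (le1 hyx) (le0 hxy)

theorem tau_dec (hxx : x * x = x) (h : tau x x a b) : ∃ c, tau x x a c ∧ tau x x c b := by
  unfold tau at h
  rw [← gl_eq hxx] at h
  obtain ⟨c, h1, h2⟩ := T2 h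
  rw [rc_eq hxx] at h1
  rw [lc_eq hxx] at h2
  exact ⟨c, h1, h2⟩

theorem alpha_tau (hxx : x * x = x) (h1 : alpha x a c) (h2 : tau x x c b) : alpha x a b := by
  unfold alpha; rw [← gl_eq hxx]
  refine T1 (c := c) ?_ ?_
  · rw [rc_eq hxx]; exact h1
  · rw [lc_nil]; exact h2

theorem tau_beta (hxx : x * x = x) (h1 : tau x x a c) (h2 : beta x c b) : beta x a b := by
  unfold beta; rw [← gl_eq hxx]
  refine T1 (c := c) ?_ ?_
  · rw [rc_nil]; exact h1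
  · rw [lc_eq hxx]; exact h2

theorem hub_rel (hxy : x * y = y) (hyx : y * x = y) {r r' : T} (h1 : alpha x a r)
    (h2 : tau x y r r') (h3 : beta x r' b) : y.rel (a, false) (b, true) := by
  rw [← K_nil, ← gl_eq hyx]
  refine T1 (c := r') ?_ ?_
  · rw [rc_nil, ← gl_eq hxy]
    refine T1 (c := r) ?_ ?_
    · rw [rc_eq hyx]; exact K.ctx h1 (fun _ _ h => h) (le0 hxy)
    · rw [lc_nil]; exact h2
  · rw [lc_nil]; exact K.ctx h3 (le1 hyx) (fun _ _ h => h)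

theorem factor [Finite T] (hxx : x * x = x) (h : x.rel (a, false) (b, true)) :
    ∃ r, tau x x r r ∧ alpha x a r ∧ beta x r b := by
  rw [← K_nil, ← gl_eq hxx] at h
  obtain ⟨c, h1, h2⟩ := T2 h
  rw [rc_nil, ← gl_eq hxx] at h1
  rw [lc_nil] at h2
  obtain ⟨c', h3, h4⟩ := T2 h1
  rw [rc_eq hxx] at h3
  rw [lc_nil] at h4
  obtain ⟨r, h5, h6, h7⟩ := idem_rel_reg (tau x x) (fun _ _ _ => tau_trans hxx)
    (fun _ _ => tau_dec hxx) (a := c') (b := c) h4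
  exact ⟨r, h6, alpha_tau hxx h3 h5, tau_beta hxx h7 h2⟩

theorem factorK [Finite T] (hxx : x * x = x) {l r : T → T → Prop}
    (h : K l x.rel r (a, false) (b, true)) :
    ∃ s, tau x x s s ∧ K l x.rel (rc x.rel r) (a, false) (s, true) ∧
      K (lc l x.rel) x.rel r (s, false) (b, true) := by
  obtain ⟨c, c', h1, h2, h3⟩ := h.cross
  obtain ⟨s, h4, h5, h6⟩ := factor hxx h2
  rw [← gl_eq hxx] at h1 h3
  refine ⟨s, h4, (K00_iff.1 h1).trans (K.ctx h5 (nil_le _) (fun _ _ e => K.of_m e)), ?_⟩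
  exact (K.ctx h6 (fun _ _ e => K.of_m e) (nil_le _)).trans (K11_iff.1 h3)

theorem sc_iff0 {z : Beh T} (h : z * x = x) : K x.r1 z.rel x.r0 (a, false) (b, false) ↔ sc x a b := by
  rw [K00_rtg, rc_eq h]; rfl

theorem sc_iff1 {z : Beh T} (h : x * z = x) : K x.r1 z.rel x.r0 (a, true) (b, true) ↔ sc x a b := by
  rw [K11_rtg, lc_eq h]; rfl

theorem two_reg [Finite T] (hxx : x * x = x) (hyy : y * y = y) (hxy : x * y = y) (hyx : y * x = y)
    (h : tau y y a a) : ∃ r1 r2, tau x x r1 r1 ∧ tau x x r2 r2 ∧ tau y y a r1 ∧ tau x y r1 r2 ∧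
      tau y y r2 a := by
  obtain ⟨c, c', h1, h2, h3⟩ := K.cross h
  rw [← K_nil, ← gl_eq hxy] at h2
  obtain ⟨p, h4, h5⟩ := T2 h2
  rw [rc_nil] at h4
  rw [lc_nil, ← gl_eq hyx] at h5
  obtain ⟨q, h6, h7⟩ := T2 h5
  rw [rc_nil] at h6
  rw [lc_eq hxy] at h7
  obtain ⟨r1, a1, a2, a3⟩ := factorK hxx h4
  obtain ⟨r2, b1, b2, b3⟩ := factorK hxx h7
  rw [rc_eq hxy] at a2
  rw [lc_nil] at a3
  rw [rc_nil] at b2
  rw [lc_eq hyx] at b3
  have c1 : tau x y r1 q := by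
    unfold tau; rw [← gl_eq hxy]
    refine T1 (c := p) ?_ ?_
    · rw [rc_eq hyx]; exact a3
    · rw [lc_eq hxx]; exact h6
  have c2 : tau x y r1 r2 := by
    unfold tau; rw [← gl_eq hyx]
    refine T1 (c := q) ?_ ?_
    · rw [rc_eq hxx]; exact c1
    · rw [lc_eq hxy]; exact b2
  refine ⟨r1, r2, a1, b1, tau_BA hyy hxy hyx h ?_, c2, tau_AB hyy hxy hyx ?_ h⟩
  · exact ((sc_iff0 hxy).2 ((sc_iff0 hyy).1 h1)).trans (K.ctx a2 (nil_le _) (fun _ _ e => e))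
  · exact (K.ctx b3 (fun _ _ e => e) (nil_le _)).trans ((sc_iff1 hyx).2 ((sc_iff1 hyy).1 h3))

theorem eqv.symm (h : eqv x a b) : eqv x b a := ⟨h.2, h.1⟩

theorem eqv.trans (hxx : x * x = x) (h1 : eqv x a b) (h2 : eqv x b c) : eqv x a c :=
  ⟨tau_trans hxx h1.1 h2.1, tau_trans hxx h2.2 h1.2⟩

theorem eqv.reg (hxx : x * x = x) (h : eqv x a b) : tau x x b b := tau_trans hxx h.2 h.1

theorem cls_eq (hxx : x * x = x) (h : eqv x a b) : cls x a = cls x b := by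
  ext c; exact ⟨fun h' => h.symm.trans hxx h', fun h' => h.trans hxx h'⟩

theorem eqv_of_cls (hb : tau x x b b) (h : cls x a = cls x b) : eqv x a b := by
  have : b ∈ cls x b := ⟨hb, hb⟩
  rw [← h] at this; exact this

theorem eqv_up (hyy : y * y = y) (hxy : x * y = y) (hyx : y * x = y) (ha : tau y y a a)
    (h : eqv x a b) : eqv y a b :=
  ⟨tau_BA hyy hxy hyx ha (tau_ctx hxy hyx h.1), tau_AB hyy hxy hyx (tau_ctx hxy hyx h.2) ha⟩

theorem ex_reg [Finite T] (hxx : x * x = x) (hyy : y * y = y) (hxy : x * y = y) (hyx : y * x = y)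
    (h : tau y y a a) : ∃ r1 r2, tau x x r1 r1 ∧ tau x x r2 r2 ∧ eqv y a r1 ∧ tau x y r1 r2 ∧
      eqv y a r2 := by
  obtain ⟨r1, r2, a1, a2, a3, a4, a5⟩ := two_reg hxx hyy hxy hyx h
  have a6 := tau_ctx hxy hyx a4
  exact ⟨r1, r2, a1, a2, ⟨a3, tau_trans hyy a6 a5⟩, a4, ⟨tau_trans hyy a3 a6, a5⟩⟩

end

end Crest.Agent.H0444
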