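import Crest.Agent.H0444.Cls

/-! One-sided hub covers (for nondeterministic machines recognising the complement). -/

set_option autoImplicit false

namespace Crest.Agent.H0444

open Relation Beh

variable {T : Type*}

abbrev Hub (T : Type*) := Set (T × Bool) × Set (T × Bool)

noncomputable instance : DecidableEq (Hub T) := Classical.decEq _

def Valid (x : Beh T) (H : Hub T) : Prop := ∀ u ∈ H.1, ∀ v ∈ H.2, x.rel u v

def Cov (x y : Beh T) (A : Finset (Hub T)) : Prop :=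
  (∀ H ∈ A, Valid x H) ∧ ∀ u v, x.rel u v → y.rel u v ∨ ∃ H ∈ A, u ∈ H.1 ∧ v ∈ H.2

def indH (x x' : Beh T) (e : T × Bool → T × Fin 3) (H : Hub T) : Hub T :=
  ({u | ∃ p ∈ H.1, W4 nil x.rel x'.rel nil (e02 u) (e p)},
    {v | ∃ p ∈ H.2, W4 nil x.rel x'.rel nil (e p) (e02 v)})

theorem Cov.mul {x x' y y' : Beh T} {A B : Finset (Hub T)} (h : Cov x y A) (h' : Cov x' y' B) :
    Cov (x * x') (y * y') (A.image (indH x x' e01) ∪ B.image (indH x x' e12)) := by
  constructor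
  · intro H hH
    rcases Finset.mem_union.1 hH with hH | hH
    · obtain ⟨H0, h0, rfl⟩ := Finset.mem_image.1 hH
      rintro u ⟨p, hp, h1⟩ v ⟨q, hq, h2⟩
      exact W4.trans (ReflTransGen.tail h1 (E4.fst (h.1 H0 h0 p hp q hq))) h2
    · obtain ⟨H0, h0, rfl⟩ := Finset.mem_image.1 hH
      rintro u ⟨p, hp, h1⟩ v ⟨q, hq, h2⟩
      exact W4.trans (ReflTransGen.tail h1 (E4.snd (h'.1 H0 h0 p hp q hq))) h2
  · intro u v huv
    have key : ∀ w, W4 nil x.rel x'.rel nil (e02 u) w → W4 nil y.rel y'.rel nil (e02 u) w ∨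
        (∃ H ∈ A, (∃ p ∈ H.1, W4 nil x.rel x'.rel nil (e02 u) (e01 p)) ∧
          ∃ p ∈ H.2, W4 nil x.rel x'.rel nil (e01 p) w) ∨
        (∃ H ∈ B, (∃ p ∈ H.1, W4 nil x.rel x'.rel nil (e02 u) (e12 p)) ∧
          ∃ p ∈ H.2, W4 nil x.rel x'.rel nil (e12 p) w) := by
      intro w hw
      induction hw with
      | refl => exact Or.inl (W4.refl _)
      | @tail p q hp e ih =>
        rcases ih with ih | ⟨H, hH, h1, p', hp', h2⟩ | ⟨H, hH, h1, p', hp', h2⟩
        · cases e with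
          | left e => exact e.elim
          | right e => exact e.elim
          | @fst a b e =>
            rcases h.2 a b e with e' | ⟨H, hH, h1, h2⟩
            · exact Or.inl (ReflTransGen.tail ih (E4.fst e'))
            · exact Or.inr (Or.inl ⟨H, hH, ⟨a, h1, hp⟩, b, h2, W4.refl _⟩)
          | @snd a b e =>
            rcases h'.2 a b e with e' | ⟨H, hH, h1, h2⟩
            · exact Or.inl (ReflTransGen.tail ih (E4.snd e'))
            · exact Or.inr (Or.inr ⟨H, hH, ⟨a, h1, hp⟩, b, h2, W4.refl _⟩)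
        · exact Or.inr (Or.inl ⟨H, hH, h1, p', hp', ReflTransGen.tail h2 e⟩)
        · exact Or.inr (Or.inr ⟨H, hH, h1, p', hp', ReflTransGen.tail h2 e⟩)
    rcases key _ huv with h1 | ⟨H, hH, h1, h2⟩ | ⟨H, hH, h1, h2⟩
    · exact Or.inl h1
    · exact Or.inr ⟨_, Finset.mem_union_left _ (Finset.mem_image_of_mem _ hH), h1, h2⟩
    · exact Or.inr ⟨_, Finset.mem_union_right _ (Finset.mem_image_of_mem _ hH), h1, h2⟩

theorem Cov.refl (x : Beh T) : Cov x x ∅ := ⟨by simp, fun _ _ h => Or.inl h⟩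

theorem Cov.init [Fintype T] (x y : Beh T) :
    ∃ A : Finset (Hub T), A.card ≤ 2 * Fintype.card T ∧ Cov x y A := by
  refine ⟨Finset.univ.image (fun u : T × Bool => (({u} : Set (T × Bool)), {v | x.rel u v})),
    Finset.card_image_le.trans (by simp [mul_comm]), ?_, ?_⟩
  · intro H hH
    obtain ⟨u, -, rfl⟩ := Finset.mem_image.1 hH
    rintro _ rfl v hv; exact hv
  · intro u v h
    exact Or.inr ⟨_, Finset.mem_image_of_mem _ (Finset.mem_univ u), rfl, h⟩

def touch (ε : Beh T) (w : T) (H : Hub T) : Prop :=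
  (∃ u ∈ H.1, K ε.r1 ε.rel ε.r0 (w, false) u) ∧ ∃ v ∈ H.2, K ε.r1 ε.rel ε.r0 v (w, true)

def hubOf (x : Beh T) (c : Set T) : Hub T :=
  ({u | u.2 = false ∧ ∃ r ∈ c, alpha x u.1 r}, {v | v.2 = true ∧ ∃ r ∈ c, beta x r v.1})

theorem chainR [Finite T] (ε : Beh T) (G : Finset (Hub T)) :
    ∃ (Good : Beh T → Prop) (n : Beh T → ℕ), Good ε ∧ (∀ x y, Good x → Good y → Good (x * y)) ∧
      (∀ y A, A ⊆ G → Cov ε y A → ε * y = y → y * ε = y → Good y) ∧
      (ε * ε = ε → n ε ≤ 2 * G.card) ∧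
      ∀ x x', Good x → Good x' → x * x = x → x' * x' = x' → x * x' = x' → x' * x = x' →
        ∃ A : Finset (Hub T), (∀ H ∈ A, Valid x H) ∧
          (∀ a b, x.rel (a, false) (b, true) → x'.rel (a, false) (b, true) ∨
            ∃ H ∈ A, (a, false) ∈ H.1 ∧ (b, true) ∈ H.2) ∧ A.card + n x' ≤ n x := by
  let W : Set T := {w | tau ε ε w w ∧ ∀ H ∈ G, Valid ε H → ¬ touch ε w H}
  let D : Beh T → Set T := fun x => {r | tau x x r r ∧ ∀ w ∈ W, ¬ eqv x w r}
  refine ⟨fun y => (∀ a b, ε.r0 a b → y.r0 a b) ∧ (∀ a b, ε.r1 a b → y.r1 a b) ∧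
    ∀ w ∈ W, tau ε y w w, fun x => 2 * (cls x '' D x).ncard,
    ⟨fun _ _ h => h, fun _ _ h => h, fun w hw => hw.1⟩, ?_, ?_, ?_, ?_⟩
  · rintro x y ⟨a1, a2, a3⟩ ⟨b1, b2, b3⟩
    refine ⟨fun a b h => r0_le_mul x y a b (a1 a b h), fun a b h => r1_le_mul x y a b (b2 a b h),
      fun w hw => ?_⟩
    refine T1 (c := w) ?_ ?_
    · exact K.ctx (a3 w hw) (fun _ _ h => h) (fun a b h => K.of_m (b1 a b h))
    · exact K.ctx (b3 w hw) (fun a b h => K.of_m (a2 a b h)) (fun _ _ h => h)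
  · intro y A hA hc h1 h2
    refine ⟨le0 h1, le1 h2, fun w hw => ?_⟩
    have key : ∀ v, K ε.r1 ε.rel ε.r0 (w, false) v → K ε.r1 y.rel ε.r0 (w, false) v ∨
        ∃ H ∈ A, (∃ u ∈ H.1, K ε.r1 ε.rel ε.r0 (w, false) u) ∧
          ∃ v' ∈ H.2, K ε.r1 ε.rel ε.r0 v' v := by
      intro v hv
      induction hv with
      | refl => exact Or.inl (K.refl _)
      | @tail p q hp e ih =>
        rcases ih with ih | ⟨H, hH, h3, v', hv', h4⟩
        · rcases e with e | e | e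
          · exact Or.inl (ReflTransGen.tail ih (Or.inl e))
          · rcases hc.2 p q e with e' | ⟨H, hH, h3, h4⟩
            · exact Or.inl (ReflTransGen.tail ih (Or.inr (Or.inl e')))
            · exact Or.inr ⟨H, hH, ⟨p, h3, hp⟩, q, h4, K.refl _⟩
          · exact Or.inl (ReflTransGen.tail ih (Or.inr (Or.inr e)))
        · exact Or.inr ⟨H, hH, h3, v', hv', ReflTransGen.tail h4 e⟩
    rcases key _ hw.1 with h | ⟨H, hH, h⟩
    · exact h
    · exact (hw.2 H (hA hH) (hc.1 H hH) h).elim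
  · intro hεε
    have : cls ε '' D ε ⊆ (fun H : Hub T => {b | ∃ r, tau ε ε r r ∧ touch ε r H ∧ eqv ε r b}) ''
        (G : Set (Hub T)) := by
      rintro _ ⟨r, ⟨h1, h2⟩, rfl⟩
      have hr : r ∉ W := fun h => h2 r h ⟨h1, h1⟩
      have : ∃ H ∈ G, Valid ε H ∧ touch ε r H := by
        by_contra hc
        exact hr ⟨h1, fun H hH hv ht => hc ⟨H, hH, hv, ht⟩⟩
      obtain ⟨H, hH, hv, ht⟩ := this
      refine ⟨H, hH, ?_⟩
      ext b
      constructor
      · rintro ⟨r', -, ht', he⟩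
        obtain ⟨⟨u, hu, k1⟩, v, hv1, k2⟩ := ht
        obtain ⟨⟨u', hu', k1'⟩, v', hv1', k2'⟩ := ht'
        have : eqv ε r r' := ⟨(k1.trans (K.of_m (hv u hu v' hv1'))).trans k2',
          (k1'.trans (K.of_m (hv u' hu' v hv1))).trans k2⟩
        exact this.trans hεε he
      · intro hb; exact ⟨r, h1, ht, hb⟩
    have h1 := Set.ncard_le_ncard this ((Finset.finite_toSet G).image _)
    have h2 := Set.ncard_image_le (f := fun H : Hub T =>
      {b | ∃ r, tau ε ε r r ∧ touch ε r H ∧ eqv ε r b}) (Finset.finite_toSet G)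
    rw [Set.ncard_coe_finset] at h2
    dsimp only; omega
  · rintro x x' ⟨a1, a2, a3⟩ ⟨b1, b2, b3⟩ hxx hyy hxy hyx
    let Bad : Set T := {r | tau x x r r ∧ ¬ tau x x' r r}
    have hfin : (cls x '' Bad).Finite := (Set.toFinite _).image _
    have hWx : ∀ w ∈ W, tau x x' w w := fun w hw => K.ctx (b3 w hw) a2 a1
    have hDD : ∀ r, tau x x r r → r ∈ D x' → r ∈ D x := by
      intro r h1 h2
      exact ⟨h1, fun w hw he => h2.2 w hw (eqv_up hyy hxy hyx h2.1 he.symm).symm⟩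
    have hD' : ∀ r r', r ∈ D x' → eqv x' r r' → r' ∈ D x' := by
      intro r r' h1 h2
      exact ⟨h2.reg hyy, fun w hw he => h1.2 w hw (he.trans hyy h2.symm)⟩
    have hcount := count_lemma (cls x) (cls x') (D x) (D x') Bad ?_ ?_ ?_ ?_
    · refine ⟨hfin.toFinset.image (hubOf x), ?_, ?_, ?_⟩
      · intro H hH
        obtain ⟨c, hc, rfl⟩ := Finset.mem_image.1 hH
        obtain ⟨r0, -, rfl⟩ := hfin.mem_toFinset.1 hc
        rintro ⟨a, s⟩ ⟨hs, r, hr, h1⟩ ⟨b, t⟩ ⟨ht, r', hr', h2⟩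
        dsimp only at hs ht h1 h2; subst hs ht
        exact hub_rel hxx hxx h1 (tau_trans hxx hr.2 hr'.1) h2
      · intro a b h
        obtain ⟨r, h1, h2, h3⟩ := factor hxx h
        by_cases hr : tau x x' r r
        · exact Or.inl (hub_rel hxy hyx h2 hr h3)
        · refine Or.inr ⟨hubOf x (cls x r), Finset.mem_image_of_mem _
            (hfin.mem_toFinset.2 ⟨r, ⟨h1, hr⟩, rfl⟩), ⟨rfl, r, ⟨h1, h1⟩, h2⟩, rfl, r, ⟨h1, h1⟩, h3⟩
      · have h1 : (hfin.toFinset.image (hubOf x)).card ≤ (cls x '' Bad).ncard := by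
          rw [Set.ncard_eq_toFinset_card _ hfin]; exact Finset.card_image_le
        dsimp only; omega
    · rintro r ⟨h1, h2⟩
      exact ⟨h1, fun w hw he => h2 (tau_r hxx hxy hyx (tau_l hxx hxy hyx he.2 (hWx w hw)) he.1)⟩
    · intro a ha
      obtain ⟨r1, -, c1, -, c3, -, -⟩ := ex_reg hxx hyy hxy hyx ha.1
      have := hD' _ _ ha c3
      exact ⟨r1, hDD _ c1 this, this, (cls_eq hyy c3).symm⟩
    · intro r r2 h1 h2 h3 h4
      have := eqv_up hyy hxy hyx h3.1 (eqv_of_cls h2.1 h4)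
      exact ⟨hD' _ _ h3 this, (cls_eq hyy this).symm⟩
    · rintro r ⟨h1, h2⟩ h3
      obtain ⟨r1, r2, c1, c2, c3, c4, c5⟩ := ex_reg hxx hyy hxy hyx h3.1
      by_cases e1 : cls x r1 = cls x r
      · by_cases e2 : cls x r2 = cls x r
        · exact (h2 (tau_r hxx hxy hyx (tau_l hxx hxy hyx (eqv_of_cls h1 e1).2 c4)
            (eqv_of_cls h1 e2).1)).elim
        · have := hD' _ _ h3 c5
          exact ⟨r2, hDD _ c2 this, this, (cls_eq hyy c5).symm, e2⟩
      · have := hD' _ _ h3 c3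
        exact ⟨r1, hDD _ c1 this, this, (cls_eq hyy c3).symm, e1⟩

def mh (H : Hub T) : Hub T := (sw ⁻¹' H.1, sw ⁻¹' H.2)

theorem Valid.mir {x : Beh T} {H : Hub T} (h : Valid x H) : Valid x.mir (mh H) :=
  fun _ hu _ hv => h _ hu _ hv

theorem Cov.mir {x y : Beh T} {A : Finset (Hub T)} (h : Cov x y A) :
    Cov x.mir y.mir (A.image mh) := by
  constructor
  · intro H hH
    obtain ⟨H0, h0, rfl⟩ := Finset.mem_image.1 hH
    exact (h.1 H0 h0).mir
  · intro u v huv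
    rcases h.2 _ _ huv with h1 | ⟨H, hH, h1, h2⟩
    · exact Or.inl h1
    · exact Or.inr ⟨_, Finset.mem_image_of_mem _ hH, h1, h2⟩

theorem chainD [Finite T] (ε : Beh T) (hεε : ε * ε = ε) (G : Finset (Hub T)) :
    ∃ (Good : Beh T → Prop) (n : Beh T → ℕ), Good ε ∧ (∀ x y, Good x → Good y → Good (x * y)) ∧
      (∀ y A, A ⊆ G → Cov ε y A → ε * y = y → y * ε = y → Good y) ∧ n ε ≤ 4 * G.card ∧
      ∀ x x', Good x → Good x' → x * x = x → x' * x' = x' → x * x' = x' → x' * x = x' →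
        ∃ A : Finset (Hub T), Cov x x' A ∧ A.card + n x' ≤ n x := by
  obtain ⟨G1, n1, a1, a2, a3, a4, a5⟩ := chainR ε G
  obtain ⟨G2, n2, b1, b2, b3, b4, b5⟩ := chainR ε.mir (G.image mh)
  refine ⟨fun y => G1 y ∧ G2 y.mir, fun x => n1 x + n2 x.mir, ⟨a1, b1⟩, ?_, ?_, ?_, ?_⟩
  · intro x y hx hy
    exact ⟨a2 _ _ hx.1 hy.1, by rw [mir_mul]; exact b2 _ _ hy.2 hx.2⟩
  · intro y A hA hc h1 h2
    exact ⟨a3 y A hA hc h1 h2, b3 _ _ (Finset.image_subset_image hA) hc.mir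
      (by rw [← mir_mul, h2]) (by rw [← mir_mul, h1])⟩
  · have c1 := a4 hεε
    have c2 := b4 (by rw [← mir_mul, hεε])
    have c3 : (G.image mh).card ≤ G.card := Finset.card_image_le
    dsimp only; omega
  · intro x x' hx hx' hxx hyy hxy hyx
    obtain ⟨A, c1, c2, c3⟩ := a5 x x' hx.1 hx'.1 hxx hyy hxy hyx
    obtain ⟨B, d1, d2, d3⟩ := b5 x.mir x'.mir hx.2 hx'.2 (by rw [← mir_mul, hxx])
      (by rw [← mir_mul, hyy]) (by rw [← mir_mul, hyx]) (by rw [← mir_mul, hxy])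
    refine ⟨A ∪ B.image mh, ⟨?_, ?_⟩, ?_⟩
    · intro H hH
      rcases Finset.mem_union.1 hH with hH | hH
      · exact c1 H hH
      · obtain ⟨H0, h0, rfl⟩ := Finset.mem_image.1 hH
        simpa using (d1 H0 h0).mir
    · rintro ⟨a, s⟩ ⟨b, t⟩ h
      cases s <;> cases t
      · exact Or.inl (le0 hxy a b h)
      · rcases c2 a b h with h1 | ⟨H, hH, h1⟩
        · exact Or.inl h1
        · exact Or.inr ⟨H, Finset.mem_union_left _ hH, h1⟩
      · rcases d2 a b h with h1 | ⟨H, hH, h1⟩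
        · exact Or.inl h1
        · exact Or.inr ⟨mh H, Finset.mem_union_right _ (Finset.mem_image_of_mem _ hH), h1⟩
      · exact Or.inl (le1 hyx a b h)
    · have e1 := Finset.card_union_le A (B.image mh)
      have e2 : (B.image mh).card ≤ B.card := Finset.card_image_le
      dsimp only; omega

end Crest.Agent.H0444
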