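import Crest.Agent.H0444.Cls

/-! Hub covers for symmetric behaviours (deterministic machines, weak connectivity). -/

set_option autoImplicit false

namespace Crest.Agent.H0444

open Relation Beh

variable {T : Type*}

abbrev Hub2 (T : Type*) := Set (T × Bool)

noncomputable instance : DecidableEq (Hub2 T) := Classical.decEq _

def Valid2 (x : Beh T) (H : Hub2 T) : Prop := ∀ u ∈ H, ∀ v ∈ H, x.rel u v

def Cov2 (x y : Beh T) (A : Finset (Hub2 T)) : Prop :=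
  (∀ H ∈ A, Valid2 x H) ∧
    ∀ u v, y.rel u v → x.rel u v ∨ ((∃ H ∈ A, u ∈ H) ∧ ∃ H ∈ A, v ∈ H)

def indH2 (x x' : Beh T) (e : T × Bool → T × Fin 3) (H : Hub2 T) : Hub2 T :=
  {u | ∃ p ∈ H, W4 nil x.rel x'.rel nil (e02 u) (e p)}

theorem Cov2.mul {x x' y y' : Beh T} {A B : Finset (Hub2 T)} (hx : x.Sym) (hx' : x'.Sym)
    (h : Cov2 x y A) (h' : Cov2 x' y' B) :
    Cov2 (x * x') (y * y') (A.image (indH2 x x' e01) ∪ B.image (indH2 x x' e12)) := by
  constructor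
  · intro H hH
    rcases Finset.mem_union.1 hH with hH | hH
    · obtain ⟨H0, h0, rfl⟩ := Finset.mem_image.1 hH
      rintro u ⟨p, hp, h1⟩ v ⟨q, hq, h2⟩
      exact W4.trans (ReflTransGen.tail h1 (E4.fst (h.1 H0 h0 p hp q hq))) (W4_symm hx hx' h2)
    · obtain ⟨H0, h0, rfl⟩ := Finset.mem_image.1 hH
      rintro u ⟨p, hp, h1⟩ v ⟨q, hq, h2⟩
      exact W4.trans (ReflTransGen.tail h1 (E4.snd (h'.1 H0 h0 p hp q hq))) (W4_symm hx hx' h2)
  · intro u v huv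
    let Tch : T × Fin 3 → Prop := fun w =>
      (∃ H ∈ A, ∃ p ∈ H, W4 nil x.rel x'.rel nil w (e01 p)) ∨
        ∃ H ∈ B, ∃ p ∈ H, W4 nil x.rel x'.rel nil w (e12 p)
    have hT : ∀ w w', W4 nil x.rel x'.rel nil w w' → Tch w' → Tch w := by
      rintro w w' h1 (⟨H, hH, p, hp, h2⟩ | ⟨H, hH, p, hp, h2⟩)
      · exact Or.inl ⟨H, hH, p, hp, h1.trans h2⟩
      · exact Or.inr ⟨H, hH, p, hp, h1.trans h2⟩
    have step : ∀ w w', (W4 nil x.rel x'.rel nil w w' ∨ (Tch w ∧ Tch w')) →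
        (W4 nil x.rel x'.rel nil (e02 u) w ∨ (Tch (e02 u) ∧ Tch w)) →
        (W4 nil x.rel x'.rel nil (e02 u) w' ∨ (Tch (e02 u) ∧ Tch w')) := by
      rintro w w' (h1 | ⟨h1, h2⟩) (h3 | ⟨h3, h4⟩)
      · exact Or.inl (h3.trans h1)
      · exact Or.inr ⟨h3, hT _ _ (W4_symm hx hx' h1) h4⟩
      · exact Or.inr ⟨hT _ _ h3 h1, h2⟩
      · exact Or.inr ⟨h3, h2⟩
    have key : W4 nil x.rel x'.rel nil (e02 u) (e02 v) ∨ (Tch (e02 u) ∧ Tch (e02 v)) := by
      refine W4.ind (P := fun w => W4 nil x.rel x'.rel nil (e02 u) w ∨ (Tch (e02 u) ∧ Tch w)) huv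
        (Or.inl (W4.refl _)) (fun _ _ e => e.elim) ?_ ?_ (fun _ _ e => e.elim)
      · intro p q e
        refine step _ _ ?_
        rcases h.2 p q e with e' | ⟨⟨H, hH, h1⟩, H', hH', h2⟩
        · exact Or.inl (ReflTransGen.single (E4.fst e'))
        · exact Or.inr ⟨Or.inl ⟨H, hH, p, h1, W4.refl _⟩, Or.inl ⟨H', hH', q, h2, W4.refl _⟩⟩
      · intro p q e
        refine step _ _ ?_
        rcases h'.2 p q e with e' | ⟨⟨H, hH, h1⟩, H', hH', h2⟩
        · exact Or.inl (ReflTransGen.single (E4.snd e'))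
        · exact Or.inr ⟨Or.inr ⟨H, hH, p, h1, W4.refl _⟩, Or.inr ⟨H', hH', q, h2, W4.refl _⟩⟩
    have fin : ∀ w, Tch (e02 w) →
        ∃ H ∈ A.image (indH2 x x' e01) ∪ B.image (indH2 x x' e12), w ∈ H := by
      rintro w (⟨H, hH, h1⟩ | ⟨H, hH, h1⟩)
      · exact ⟨_, Finset.mem_union_left _ (Finset.mem_image_of_mem _ hH), h1⟩
      · exact ⟨_, Finset.mem_union_right _ (Finset.mem_image_of_mem _ hH), h1⟩
    rcases key with h1 | ⟨h1, h2⟩
    · exact Or.inl h1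
    · exact Or.inr ⟨fin _ h1, fin _ h2⟩

theorem Cov2.refl (x : Beh T) : Cov2 x x ∅ := ⟨by simp, fun _ _ h => Or.inl h⟩

theorem Cov2.init [Fintype T] (x y : Beh T) :
    ∃ A : Finset (Hub2 T), A.card ≤ 2 * Fintype.card T ∧ Cov2 x y A := by
  refine ⟨Finset.univ.image (fun u : T × Bool => ({u} : Set (T × Bool))),
    Finset.card_image_le.trans (by simp [mul_comm]), ?_, ?_⟩
  · intro H hH
    obtain ⟨u, -, rfl⟩ := Finset.mem_image.1 hH
    rintro _ rfl v rfl; exact x.refl _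
  · intro u v _
    exact Or.inr ⟨⟨_, Finset.mem_image_of_mem _ (Finset.mem_univ u), rfl⟩,
      ⟨_, Finset.mem_image_of_mem _ (Finset.mem_univ v), rfl⟩⟩

section
variable {x y : Beh T} {a b c : T}

theorem Ksym {z : Beh T} (hx : x.Sym) (hz : z.Sym) {u v : T × Bool} (h : K x.r1 z.rel x.r0 u v) :
    K x.r1 z.rel x.r0 v u :=
  K_symm (fun _ _ e => hx _ _ e) hz (fun _ _ e => hx _ _ e) h

theorem sc_symm (hx : x.Sym) (h : sc x a b) : sc x b a := by
  induction h with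
  | refl => exact ReflTransGen.refl
  | tail _ e ih => exact ReflTransGen.head (e.imp (hx _ _) (hx _ _)) ih

theorem sc_up (hxy : ∀ a b, x.r0 a b → y.r0 a b) (hyx : ∀ a b, x.r1 a b → y.r1 a b)
    (h : sc x a b) : sc y a b := by
  induction h with
  | refl => exact ReflTransGen.refl
  | tail _ e ih => exact ReflTransGen.tail ih (e.imp (hyx _ _) (hxy _ _))

theorem sc_eqv (hx : x.Sym) (hxx : x * x = x) (ha : tau x x a a) (h : sc x a b) : eqv x a b :=
  ⟨K.trans ha ((sc_iff1 hxx).2 h), ((sc_iff0 hxx).2 (sc_symm hx h)).trans ha⟩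

theorem sc_of_tau (hx : x.Sym) (hxx : x * x = x) (ha : tau x x a a) (h : tau x x a b) :
    sc x a b := (sc_iff1 hxx).1 ((Ksym hx hx ha).trans h)

theorem sc_of_tau' (hx : x.Sym) (hxx : x * x = x) (ha : tau x x a a) (h : tau x x b a) :
    sc x a b := (sc_iff0 hxx).1 (K.trans ha (Ksym hx hx h))

/-- the same-cut class of a regular point of `y` is closed under `x`-edges -/
theorem sc_closed (hx : x.Sym) (hy : y.Sym) (hyy : y * y = y) (hxy : x * y = y) (hyx : y * x = y)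
    {r : T} (hr : tau y y r r) (u v : T × Bool) (e : x.rel u v) (h : sc y r u.1) : sc y r v.1 := by
  obtain ⟨a, s⟩ := u
  obtain ⟨b, t⟩ := v
  have ha : tau y y a a := (sc_eqv hy hyy hr h).reg hyy
  refine ReflTransGen.trans h ?_
  cases s <;> cases t
  · exact ReflTransGen.single (Or.inr (le0 hxy _ _ e))
  · exact sc_of_tau hy hyy ha (tau_BA hyy hxy hyx ha (K.of_m e))
  · exact sc_of_tau' hy hyy ha (tau_AB hyy hxy hyx (K.of_m (hx _ _ e)) ha)
  · exact ReflTransGen.single (Or.inl (le1 hyx _ _ e))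

def att (x : Beh T) (u : T × Bool) (r : T) : Prop :=
  (u.2 = false ∧ alpha x u.1 r) ∨ (u.2 = true ∧ beta x r u.1)

theorem K_closed {z : Beh T} {Z : T → Prop} (hZ : ∀ u v, x.rel u v → Z u.1 → Z v.1)
    (hZ' : ∀ u v, z.rel u v → Z u.1 → Z v.1) {u v : T × Bool} (h : K x.r1 z.rel x.r0 u v)
    (hu : Z u.1) : Z v.1 :=
  h.ind (P := fun w => Z w.1) hu (fun a b e => hZ (a, true) (b, true) e) hZ'
    (fun a b e => hZ (a, false) (b, false) e)

theorem att_iff (hx : x.Sym) {Z : T → Prop} (hZ : ∀ u v, x.rel u v → Z u.1 → Z v.1)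
    {u : T × Bool} {r : T} (h : att x u r) : Z u.1 ↔ Z r := by
  rcases h with ⟨-, h⟩ | ⟨-, h⟩
  · have h' : tau x x u.1 r := K.ctx h (nil_le _) (fun _ _ e => e)
    exact ⟨K_closed hZ hZ h', K_closed hZ hZ (Ksym hx hx h')⟩
  · have h' : tau x x r u.1 := K.ctx h (fun _ _ e => e) (nil_le _)
    exact ⟨K_closed hZ hZ (Ksym hx hx h'), K_closed hZ hZ h'⟩

theorem ex_beta (hxx : x * x = x) (ha : tau x x a a) : ∃ b, beta x a b := by
  obtain ⟨c, c', h1, h2, -⟩ := K.cross ha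
  refine ⟨c', K.trans ?_ (K.of_m h2)⟩
  rw [K00_rtg, rc_nil]; exact (sc_iff0 hxx).1 h1

theorem ex_alpha (hxx : x * x = x) (ha : tau x x a a) : ∃ b, alpha x b a := by
  obtain ⟨c, c', -, h2, h3⟩ := K.cross ha
  refine ⟨c, K.trans (K.of_m h2) ?_⟩
  rw [K11_rtg, lc_nil]; exact (sc_iff1 hxx).1 h3

theorem att_rel (hx : x.Sym) (hxx : x * x = x) {u v : T × Bool} {r r' : T} (h1 : att x u r)
    (h2 : att x v r') (he : eqv x r r') : x.rel u v := by
  obtain ⟨a, s⟩ := u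
  obtain ⟨b, t⟩ := v
  rcases h1 with ⟨hs, h1⟩ | ⟨hs, h1⟩ <;> rcases h2 with ⟨ht, h2⟩ | ⟨ht, h2⟩ <;>
    dsimp only at hs ht h1 h2 <;> subst hs ht
  · obtain ⟨c, hc⟩ := ex_beta hxx (he.reg hxx)
    exact x.trans (hub_rel hxx hxx h1 he.1 hc) (hx _ _ (hub_rel hxx hxx h2 (he.reg hxx) hc))
  · exact hub_rel hxx hxx h1 he.1 h2
  · exact hx _ _ (hub_rel hxx hxx h2 he.2 h1)
  · obtain ⟨c, hc⟩ := ex_alpha hxx (he.reg hxx)
    exact x.trans (hx _ _ (hub_rel hxx hxx hc he.2 h1)) (hub_rel hxx hxx hc (he.reg hxx) h2)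

theorem att_or [Finite T] (hx : x.Sym) (hxx : x * x = x) (hxy : x * y = y) (hyx : y * x = y)
    (u : T × Bool) : (∃ r, tau x x r r ∧ att x u r) ∨ ∀ v, y.rel u v → x.rel u v := by
  obtain ⟨a, s⟩ := u
  by_cases h : ∃ b, x.rel (a, s) (b, !s)
  · obtain ⟨b, hb⟩ := h
    cases s
    · obtain ⟨r, h1, h2, -⟩ := factor hxx hb
      exact Or.inl ⟨r, h1, Or.inl ⟨rfl, h2⟩⟩
    · obtain ⟨r, h1, -, h2⟩ := factor hxx (hx _ _ hb)
      exact Or.inl ⟨r, h1, Or.inr ⟨rfl, h2⟩⟩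
  · right
    rintro ⟨b, t⟩ hv
    cases s
    · rw [← hxy] at hv
      have key := W4.ind (P := fun w => w.2 = 0 ∧ x.rel (a, false) (w.1, false)) hv
        ⟨rfl, x.refl _⟩ (fun _ _ e => e.elim) ?_ ?_ (fun _ _ e => e.elim)
      · cases t
        · exact key.2
        · simp [e02] at key
      · rintro ⟨p, s⟩ ⟨q, s'⟩ e ⟨h1, h2⟩
        cases s
        · cases s'
          · exact ⟨rfl, x.trans h2 e⟩
          · exact (h ⟨q, x.trans h2 e⟩).elim
        · simp [e01] at h1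
      · rintro ⟨p, s⟩ ⟨q, s'⟩ e ⟨h1, h2⟩
        cases s <;> simp [e12] at h1
    · rw [← hyx] at hv
      have key := W4.ind (P := fun w => w.2 = 2 ∧ x.rel (a, true) (w.1, true)) hv
        ⟨rfl, x.refl _⟩ (fun _ _ e => e.elim) ?_ ?_ (fun _ _ e => e.elim)
      · cases t
        · simp [e02] at key
        · exact key.2
      · rintro ⟨p, s⟩ ⟨q, s'⟩ e ⟨h1, h2⟩
        cases s <;> simp [e01] at h1
      · rintro ⟨p, s⟩ ⟨q, s'⟩ e ⟨h1, h2⟩
        cases s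
        · simp [e12] at h1
        · cases s'
          · exact (h ⟨q, x.trans h2 e⟩).elim
          · exact ⟨rfl, x.trans h2 e⟩

end

theorem chainS [Finite T] (ε : Beh T) (hε : ε.Sym) (hεε : ε * ε = ε) (G : Finset (Hub2 T)) :
    ∃ (Good : Beh T → Prop) (n : Beh T → ℕ), Good ε ∧ (∀ x y, Good x → Good y → Good (x * y)) ∧
      (∀ y A, A ⊆ G → Cov2 ε y A → ε * y = y → y * ε = y → Good y) ∧ n ε ≤ 4 * G.card ∧
      ∀ x x', x.Sym → x'.Sym → Good x → Good x' → x * x = x → x' * x' = x' → x * x' = x' →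
        x' * x = x' → ∃ A : Finset (Hub2 T), Cov2 x x' A ∧ A.card + n x' ≤ n x := by
  let W : Set T := {w | tau ε ε w w ∧ ∀ H ∈ G, Valid2 ε H → ∀ u ∈ H, ¬ sc ε w u.1}
  let D : Beh T → Set T := fun x => {r | tau x x r r ∧ ∀ w ∈ W, ¬ sc ε w r}
  have hcl : ∀ w, tau ε ε w w → ∀ u v, ε.rel u v → sc ε w u.1 → sc ε w v.1 :=
    fun w hw => sc_closed hε hε hεε hεε hεε hw
  refine ⟨fun y => (∀ a b, ε.r0 a b → y.r0 a b) ∧ (∀ a b, ε.r1 a b → y.r1 a b) ∧
    ∀ w ∈ W, ∀ u v, y.rel u v → sc ε w u.1 → sc ε w v.1, fun x => 2 * (cls x '' D x).ncard,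
    ⟨fun _ _ h => h, fun _ _ h => h, fun w hw => hcl w hw.1⟩, ?_, ?_, ?_, ?_⟩
  · rintro x y ⟨a1, a2, a3⟩ ⟨b1, b2, b3⟩
    refine ⟨fun a b h => r0_le_mul x y a b (a1 a b h), fun a b h => r1_le_mul x y a b (b2 a b h),
      fun w hw u v e hu => ?_⟩
    exact W4.ind (P := fun p => sc ε w p.1) e hu (fun _ _ e => e.elim)
      (fun p q e => a3 w hw p q e) (fun p q e => b3 w hw p q e) (fun _ _ e => e.elim)
  · intro y A hA hc h1 h2
    refine ⟨le0 h1, le1 h2, fun w hw u v e hu => ?_⟩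
    rcases hc.2 u v e with e' | ⟨⟨H, hH, h3⟩, -⟩
    · exact hcl w hw.1 u v e' hu
    · exact (hw.2 H (hA hH) (hc.1 H hH) u h3 hu).elim
  · have : cls ε '' D ε ⊆ (fun H : Hub2 T =>
        {b | ∃ r, tau ε ε r r ∧ (∃ u ∈ H, sc ε r u.1) ∧ eqv ε r b}) '' (G : Set (Hub2 T)) := by
      rintro _ ⟨r, ⟨h1, h2⟩, rfl⟩
      have hr : r ∉ W := fun h => h2 r h ReflTransGen.refl
      have : ∃ H ∈ G, Valid2 ε H ∧ ∃ u ∈ H, sc ε r u.1 := by
        by_contra hc
        exact hr ⟨h1, fun H hH hv u hu ht => hc ⟨H, hH, hv, u, hu, ht⟩⟩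
      obtain ⟨H, hH, hv, u, hu, ht⟩ := this
      refine ⟨H, hH, ?_⟩
      ext b
      constructor
      · rintro ⟨r', -, ⟨u', hu', ht'⟩, he⟩
        have : sc ε r r' := ReflTransGen.trans (hcl r h1 u u' (hv u hu u' hu') ht) (sc_symm hε ht')
        exact (sc_eqv hε hεε h1 this).trans hεε he
      · intro hb; exact ⟨r, h1, ⟨u, hu, ht⟩, hb⟩
    have h1 := Set.ncard_le_ncard this ((Finset.finite_toSet G).image _)
    have h2 := Set.ncard_image_le (f := fun H : Hub2 T =>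
      {b | ∃ r, tau ε ε r r ∧ (∃ u ∈ H, sc ε r u.1) ∧ eqv ε r b}) (Finset.finite_toSet G)
    rw [Set.ncard_coe_finset] at h2
    dsimp only; omega
  · rintro x x' hx hx' ⟨a1, a2, a3⟩ ⟨b1, b2, b3⟩ hxx hyy hxy hyx
    let Bad : Set T := {r | tau x x r r ∧ ∃ r', tau x x r' r' ∧ ¬ eqv x r r' ∧
      ∃ u v, att x u r ∧ att x v r' ∧ x'.rel u v}
    have hfin : (cls x '' Bad).Finite := (Set.toFinite _).image _
    have hD' : ∀ r r', r ∈ D x' → eqv x' r r' → r' ∈ D x' := by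
      intro r r' h1 h2
      exact ⟨h2.reg hyy, fun w hw he => h1.2 w hw (K_closed (b3 w hw) (b3 w hw) h2.2 he)⟩
    have hcount := count_lemma (cls x) (cls x') (D x) (D x') Bad ?_ ?_ ?_ ?_
    · refine ⟨hfin.toFinset.image (fun c => {u | ∃ r ∈ c, att x u r}), ⟨?_, ?_⟩, ?_⟩
      · intro H hH
        obtain ⟨c, hc, rfl⟩ := Finset.mem_image.1 hH
        obtain ⟨r0, -, rfl⟩ := hfin.mem_toFinset.1 hc
        rintro u ⟨r, hr, h1⟩ v ⟨r', hr', h2⟩
        exact att_rel hx hxx h1 h2 (eqv.trans hxx (eqv.symm hr) hr')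
      · intro u v e
        rcases att_or hx hxx hxy hyx u with ⟨r, h1, h2⟩ | h
        · rcases att_or hx hxx hxy hyx v with ⟨r', h3, h4⟩ | h
          · by_cases he : eqv x r r'
            · exact Or.inl (att_rel hx hxx h2 h4 he)
            · refine Or.inr ⟨⟨_, Finset.mem_image_of_mem _ (hfin.mem_toFinset.2
                ⟨r, ⟨h1, r', h3, he, u, v, h2, h4, e⟩, rfl⟩), r, ⟨h1, h1⟩, h2⟩,
                ⟨_, Finset.mem_image_of_mem _ (hfin.mem_toFinset.2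
                ⟨r', ⟨h3, r, h1, fun h => he h.symm, v, u, h4, h2, hx' _ _ e⟩, rfl⟩), r', ⟨h3, h3⟩,
                h4⟩⟩
          · exact Or.inl (hx _ _ (h _ (hx' _ _ e)))
        · exact Or.inl (h _ e)
      · have h1 : (hfin.toFinset.image (fun c => ({u | ∃ r ∈ c, att x u r} : Hub2 T))).card ≤
            (cls x '' Bad).ncard := by
          rw [Set.ncard_eq_toFinset_card _ hfin]; exact Finset.card_image_le
        dsimp only; omega
    · rintro r ⟨h1, r', h2, h3, u, v, h4, h5, h6⟩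
      refine ⟨h1, fun w hw he => h3 ?_⟩
      have e1 := (att_iff hx (a3 w hw) h5).1 (b3 w hw u v h6 ((att_iff hx (a3 w hw) h4).2 he))
      exact sc_eqv hx hxx h1 (sc_up a1 a2 (ReflTransGen.trans (sc_symm hε he) e1))
    · intro a ha
      obtain ⟨r1, -, c1, -, c3, -, -⟩ := ex_reg hxx hyy hxy hyx ha.1
      have := hD' _ _ ha c3
      exact ⟨r1, ⟨c1, this.2⟩, this, (cls_eq hyy c3).symm⟩
    · intro r r2 h1 h2 h3 h4
      have := eqv_up hyy hxy hyx h3.1 (eqv_of_cls h2.1 h4)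
      exact ⟨hD' _ _ h3 this, (cls_eq hyy this).symm⟩
    · rintro r ⟨h1, r', h2, h3, u, v, h4, h5, h6⟩ hr
      have c1 := sc_closed hx hx' hyy hxy hyx hr.1
      have c2 := sc_closed hx' hx' hyy hyy hyy hr.1
      have e1 := (att_iff hx c1 h5).1 (c2 u v h6 ((att_iff hx c1 h4).2 ReflTransGen.refl))
      have e2 := sc_eqv hx' hyy hr.1 e1
      have := hD' _ _ hr e2
      exact ⟨r', ⟨h2, this.2⟩, this, (cls_eq hyy e2).symm,
        fun h => h3 (eqv_of_cls h1 h).symm⟩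

end Crest.Agent.H0444
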