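import Crest.Prelude.Def_TwoWay
import Crest.Agent.H0444.Dir
import Crest.Agent.H0444.Sym
import Crest.Agent.H0444.Alg

/-! From two-way automata to behaviours; the lower bounds; the small automaton. -/

set_option autoImplicit false

namespace Crest.Agent.H0444

open Relation Beh Crest.TwoWay

variable {α σ : Type*} (M : TwoWayNFA α σ)

abbrev Port (σ : Type*) := Option (σ × Bool)

/-- edges contributed by one tape cell -/
inductive LE (c : Cell α) : Port σ × Bool → Port σ × Bool → Prop
  | idf (q : σ) : LE c (some (q, true), false) (some (q, false), true)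
  | idb (q : σ) : LE c (some (q, false), true) (some (q, true), false)
  | stf : LE c (none, false) (none, true)
  | stb : LE c (none, true) (none, false)
  | acc {q : σ} : q ∈ M.accept → LE c (some (q, true), false) (none, false)
  | left {q q' : σ} : q ∉ M.accept → (q', HeadMove.moveLeft) ∈ M.step q c →
      LE c (some (q, true), false) (some (q', false), false)
  | stay {q q' : σ} : q ∉ M.accept → (q', HeadMove.stay) ∈ M.step q c →
      LE c (some (q, true), false) (some (q', true), false)
  | right {q q' : σ} : q ∉ M.accept → (q', HeadMove.moveRight) ∈ M.step q c →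
      LE c (some (q, true), false) (some (q', true), true)

inductive Lam : Port σ → Port σ → Prop
  | acc {q : σ} : q ∈ M.accept → Lam (some (q, false)) none
  | stay {q q' : σ} : q ∉ M.accept → (q', HeadMove.stay) ∈ M.step q Cell.leftEnd →
      Lam (some (q, false)) (some (q', false))
  | right {q q' : σ} : q ∉ M.accept → (q', HeadMove.moveRight) ∈ M.step q Cell.leftEnd →
      Lam (some (q, false)) (some (q', true))

inductive Rho : Port σ → Port σ → Prop
  | acc {q : σ} : q ∈ M.accept → Rho (some (q, true)) none
  | stay {q q' : σ} : q ∉ M.accept → (q', HeadMove.stay) ∈ M.step q Cell.rightEnd →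
      Rho (some (q, true)) (some (q', true))
  | left {q q' : σ} : q ∉ M.accept → (q', HeadMove.moveLeft) ∈ M.step q Cell.rightEnd →
      Rho (some (q, true)) (some (q', false))

def blk (sym : Bool) (a : α) : Beh (Port σ) :=
  ⟨ReflTransGen (fun u v => LE M (Cell.letter a) u v ∨ (sym = true ∧ LE M (Cell.letter a) v u)),
    fun _ => ReflTransGen.refl, fun h1 h2 => h1.trans h2⟩

theorem blk_sym (a : α) : (blk M true a).Sym := by
  intro u v h
  induction h with
  | refl => exact ReflTransGen.refl
  | tail _ e ih =>
    exact ReflTransGen.head (e.elim (fun h => Or.inr ⟨rfl, h⟩) (fun h => Or.inl h.2)) ih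

def psi (sym : Bool) : α → List α → Beh (Port σ)
  | a, [] => blk M sym a
  | a, b :: w => blk M sym a * psi sym b w

theorem psi_append (sym : Bool) (a b : α) (w w' : List α) :
    psi M sym a (w ++ b :: w') = psi M sym a w * psi M sym b w' := by
  induction w generalizing a with
  | nil => rfl
  | cons c w ih => simp only [List.cons_append, psi, ih, mul_assoc]

theorem psi_sym (a : α) (w : List α) : (psi M true a w).Sym := by
  induction w generalizing a with
  | nil => exact blk_sym M a
  | cons c w ih => exact (blk_sym M a).mul (ih c)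

def RC (sym : Bool) : List α → Port σ → Port σ → Prop
  | [] => Rho M
  | a :: w => rc (blk M sym a).rel (RC sym w)

theorem RC_psi (sym : Bool) (a : α) (w : List α) :
    RC M sym (a :: w) = rc (psi M sym a w).rel (Rho M) := by
  induction w generalizing a with
  | nil => rfl
  | cons c w ih => rw [RC, ih, psi, mul_rel, rc_gl]

def Acc (w : List α) (c : σ × ℕ) : Prop :=
  ∃ d, ReflTransGen (M.Step w) c d ∧ d.1 ∈ M.accept

def val (w : List α) (j : ℕ) : Port σ → Prop
  | none => True
  | some (q, b) => Acc M w (q, j + b.toNat)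

variable {M}

theorem Acc.back {w : List α} {c d : σ × ℕ} (h : M.Step w c d) (hd : Acc M w d) : Acc M w c := by
  obtain ⟨e, h1, h2⟩ := hd
  exact ⟨e, h1.head h, h2⟩

theorem Acc.fwd (hM : M.IsDeterministic) {w : List α} {c d : σ × ℕ} (h : M.Step w c d)
    (hc : c.1 ∉ M.accept) (hd : Acc M w c) : Acc M w d := by
  obtain ⟨e, h1, h2⟩ := hd
  rcases h1.cases_head with rfl | ⟨d', h3, h4⟩
  · exact (hc h2).elim
  · obtain ⟨m, a1, a2⟩ := h
    obtain ⟨m', b1, b2⟩ := h3
    have := hM _ _ a1 b1
    obtain ⟨e1, rfl⟩ := Prod.mk.inj this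
    have e2 : d.2 = d'.2 := Option.some.inj (a2.symm.trans b2)
    have : d = d' := Prod.ext e1 e2
    subst this
    exact ⟨e, h4, h2⟩

theorem scan_mid (pre suf : List α) (a : α) :
    scan (pre ++ a :: suf) (pre.length + 1) = Cell.letter a := by
  simp [scan]

theorem scan_end (w : List α) : scan w (w.length + 1) = Cell.rightEnd := by
  simp [scan]

theorem LE.sound {pre suf : List α} {a : α} {u v : Port σ × Bool} (h : LE M (Cell.letter a) u v) :
    (val M (pre ++ a :: suf) (pre.length + v.2.toNat) v.1 →
      val M (pre ++ a :: suf) (pre.length + u.2.toNat) u.1) ∧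
    (M.IsDeterministic → val M (pre ++ a :: suf) (pre.length + u.2.toNat) u.1 →
      val M (pre ++ a :: suf) (pre.length + v.2.toNat) v.1) := by
  cases h with
  | idf q => exact ⟨fun h => h, fun _ h => h⟩
  | idb q => exact ⟨fun h => h, fun _ h => h⟩
  | stf => exact ⟨fun h => h, fun _ h => h⟩
  | stb => exact ⟨fun h => h, fun _ h => h⟩
  | acc hq => exact ⟨fun _ => ⟨_, ReflTransGen.refl, hq⟩, fun _ _ => trivial⟩
  | @left q q' hq hs =>
    have st : M.Step (pre ++ a :: suf) (q, pre.length + 1) (q', pre.length) :=
      ⟨_, by rw [scan_mid]; exact hs, by simp [movePos]⟩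
    exact ⟨fun h => Acc.back st h, fun hM h => Acc.fwd hM st hq h⟩
  | @stay q q' hq hs =>
    have st : M.Step (pre ++ a :: suf) (q, pre.length + 1) (q', pre.length + 1) :=
      ⟨_, by rw [scan_mid]; exact hs, by simp [movePos]⟩
    exact ⟨fun h => Acc.back st h, fun hM h => Acc.fwd hM st hq h⟩
  | @right q q' hq hs =>
    have st : M.Step (pre ++ a :: suf) (q, pre.length + 1) (q', pre.length + 1 + 1) :=
      ⟨_, by rw [scan_mid]; exact hs, by simp [movePos]⟩
    exact ⟨fun h => Acc.back st h, fun hM h => Acc.fwd hM st hq h⟩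

theorem RC_sound {sym : Bool} (hs : sym = true → M.IsDeterministic) (w : List α) :
    ∀ suf pre : List α, w = pre ++ suf → ∀ p p', RC M sym suf p p' →
      val M w pre.length p' → val M w pre.length p := by
  intro suf
  induction suf with
  | nil =>
    intro pre hw p p' h
    rw [List.append_nil] at hw; subst hw
    cases h with
    | acc hq => exact fun _ => ⟨_, ReflTransGen.refl, hq⟩
    | @stay q q' hq hs =>
      have st : M.Step w (q, w.length + 1) (q', w.length + 1) :=
        ⟨_, by rw [scan_end]; exact hs, by simp [movePos]⟩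
      exact fun h => Acc.back st h
    | @left q q' hq hs =>
      have st : M.Step w (q, w.length + 1) (q', w.length) :=
        ⟨_, by rw [scan_end]; exact hs, by simp [movePos]⟩
      exact fun h => Acc.back st h
  | cons a suf ih =>
    intro pre hw p p' h
    have ih' := ih (pre ++ [a]) (by simp [hw])
    rw [List.length_append, List.length_singleton] at ih'
    refine K.ind (P := fun u => val M w (pre.length + u.2.toNat) u.1 → val M w pre.length p) h
      (fun h => h) (fun _ _ e => e.elim) ?_ (fun c c' e h1 h2 => h1 (ih' c c' e h2))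
    intro u v e h1
    induction e with
    | refl => exact h1
    | tail _ e ih2 =>
      intro h2
      apply ih2
      subst hw
      rcases e with e | ⟨e1, e⟩
      · exact e.sound.1 h2
      · exact e.sound.2 (hs e1) h2

theorem RC_complete (sym : Bool) : ∀ (suf : List α) (Z : Port σ → Prop),
    (∀ p p', RC M sym suf p p' → Z p → Z p') → ∃ F : ℕ → Port σ → Prop, F 0 = Z ∧
      (∀ pre a suf', suf = pre ++ a :: suf' → ∀ u v, LE M (Cell.letter a) u v →
        F (pre.length + u.2.toNat) u.1 → F (pre.length + v.2.toNat) v.1) ∧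
      ∀ p p', Rho M p p' → F suf.length p → F suf.length p' := by
  intro suf
  induction suf with
  | nil =>
    intro Z hZ
    exact ⟨fun _ => Z, rfl, fun pre a suf' h => by simp at h, hZ⟩
  | cons a s ih =>
    intro Z hZ
    let Z1 : Port σ → Prop := fun q => ∃ p, Z p ∧
      K nil (blk M sym a).rel (RC M sym s) (p, false) (q, true)
    obtain ⟨F, h0, h1, h2⟩ := ih Z1 (fun p p' e ⟨c, h1, h2⟩ => ⟨c, h1, h2.trans (K.of_r e)⟩)
    refine ⟨fun j => Nat.casesOn j Z F, rfl, ?_, h2⟩
    intro pre b suf' hsuf u v e
    cases pre with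
    | nil =>
      obtain ⟨rfl, -⟩ := List.cons.inj hsuf
      have e' : K nil (blk M sym a).rel (RC M sym s) u v :=
        K.of_m (ReflTransGen.single (Or.inl e))
      obtain ⟨p, s1⟩ := u
      obtain ⟨q, s2⟩ := v
      cases s1 <;> cases s2
      · exact hZ p q e'
      · intro hp
        change F 0 q
        rw [h0]; exact ⟨p, hp, e'⟩
      · intro hp
        change F 0 p at hp
        rw [h0] at hp
        obtain ⟨c, h3, h4⟩ := hp
        exact hZ c q (h4.trans e') h3
      · intro hp
        change F 0 p at hp
        change F 0 q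
        rw [h0] at hp ⊢
        obtain ⟨c, h3, h4⟩ := hp
        exact ⟨c, h3, h4.trans e'⟩
    | cons c pre =>
      obtain ⟨-, hs⟩ := List.cons.inj hsuf
      have := h1 pre b suf' hs u v e
      simp only [List.length_cons, Nat.add_right_comm _ 1]
      exact this

theorem accepts_iff {sym : Bool} (hs : sym = true → M.IsDeterministic) (w : List α) :
    M.Accepts w ↔
      ReflTransGen (fun p q => Lam M p q ∨ RC M sym w p q) (some (M.start, false)) none := by
  constructor
  · rintro ⟨d, hd, hacc⟩
    obtain ⟨F, h0, h1, h2⟩ := RC_complete sym w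
      (fun p => ReflTransGen (fun p q => Lam M p q ∨ RC M sym w p q) (some (M.start, false)) p)
      (fun p p' e h => h.tail (Or.inr e))
    have hl : ∀ p p', Lam M p p' → F 0 p → F 0 p' := by
      intro p p' e h; rw [h0] at h ⊢; exact h.tail (Or.inl e)
    have hdec : ∀ j, j < w.length → ∃ pre a suf, w = pre ++ a :: suf ∧ pre.length = j := by
      intro j hj
      exact ⟨w.take j, w[j], w.drop (j + 1), by simp, by simp; omega⟩
    have hstar : ∀ j, j ≤ w.length → F j none → F 0 none := by
      intro j
      induction j with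
      | zero => exact fun _ h => h
      | succ j ih =>
        intro hj h
        obtain ⟨pre, a, suf, e1, rfl⟩ := hdec j (by omega)
        exact ih (by omega) (h1 pre a suf e1 _ _ LE.stb h)
    let Inv : σ × ℕ → Prop := fun c => Nat.casesOn c.2 (F 0 (some (c.1, false)))
      (fun j => j ≤ w.length ∧ F j (some (c.1, true)))
    have hback : ∀ q j, j ≤ w.length → F j (some (q, false)) → Inv (q, j) := by
      intro q j hj h
      cases j with
      | zero => exact h
      | succ j =>
        obtain ⟨pre, a, suf, e1, rfl⟩ := hdec j (by omega)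
        exact ⟨by omega, h1 pre a suf e1 _ _ (LE.idb q) h⟩
    have hA : ∀ c, c.1 ∈ M.accept → Inv c → F 0 none := by
      rintro ⟨q, i⟩ hq h
      cases i with
      | zero => exact hl _ _ (Lam.acc hq) h
      | succ j =>
        obtain ⟨hj, h⟩ := h
        rcases hj.lt_or_eq with hj' | rfl
        · obtain ⟨pre, a, suf, e1, rfl⟩ := hdec j hj'
          exact hstar _ hj (h1 pre a suf e1 _ _ (LE.acc hq) h)
        · exact hstar _ hj (h2 _ _ (Rho.acc hq) h)
    have hS : ∀ c c', c.1 ∉ M.accept → M.Step w c c' → Inv c → Inv c' := by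
      rintro ⟨q, i⟩ ⟨q', i'⟩ hq ⟨m, e1, e2⟩ h
      dsimp only at hq e1 e2
      cases i with
      | zero =>
        have e3 : scan w 0 = Cell.leftEnd := rfl
        rw [e3] at e1
        cases m with
        | moveLeft => simp [movePos] at e2
        | stay =>
          obtain rfl : 0 = i' := by simpa [movePos] using e2
          exact hl _ _ (Lam.stay hq e1) h
        | moveRight =>
          obtain rfl : 1 = i' := by simpa [movePos] using e2
          exact ⟨Nat.zero_le _, hl _ _ (Lam.right hq e1) h⟩
      | succ j =>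
        obtain ⟨hj, h⟩ := h
        rcases hj.lt_or_eq with hj' | rfl
        · obtain ⟨pre, a, suf, e3, rfl⟩ := hdec j hj'
          have e4 : scan w (pre.length + 1) = Cell.letter a := by rw [e3]; exact scan_mid _ _ _
          rw [e4] at e1
          cases m with
          | moveLeft =>
            obtain rfl : pre.length = i' := by simpa [movePos] using e2
            exact hback _ _ hj (h1 pre a suf e3 _ _ (LE.left hq e1) h)
          | stay =>
            obtain rfl : pre.length + 1 = i' := by simpa [movePos] using e2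
            exact ⟨hj, h1 pre a suf e3 _ _ (LE.stay hq e1) h⟩
          | moveRight =>
            have e5 : ¬ (w.length + 1 ≤ pre.length + 1) := by omega
            obtain rfl : pre.length + 1 + 1 = i' := by simpa [movePos, e5, hj'] using e2
            exact ⟨hj', h1 pre a suf e3 _ _ (LE.right hq e1) h⟩
        · rw [scan_end] at e1
          cases m with
          | moveLeft =>
            obtain rfl : w.length = i' := by simpa [movePos] using e2
            exact hback _ _ hj (h2 _ _ (Rho.left hq e1) h)
          | stay =>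
            obtain rfl : w.length + 1 = i' := by simpa [movePos] using e2
            exact ⟨hj, h2 _ _ (Rho.stay hq e1) h⟩
          | moveRight => simp [movePos] at e2
    have key : ∀ c, ReflTransGen (M.Step w) c d → Inv c → F 0 none := by
      intro c hc
      induction hc using ReflTransGen.head_induction_on with
      | refl => exact hA _ hacc
      | @head c c' e _ ih =>
        intro h
        by_cases hq : c.1 ∈ M.accept
        · exact hA _ hq h
        · exact ih (hS _ _ hq e h)
    have := key _ hd (by change F 0 _; rw [h0])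
    rwa [h0] at this
  · intro h
    have key : ∀ p, ReflTransGen (fun p q => Lam M p q ∨ RC M sym w p q) p none →
        val M w 0 p := by
      intro p hp
      induction hp using ReflTransGen.head_induction_on with
      | refl => trivial
      | @head c c' e _ ih =>
        rcases e with e | e
        · cases e with
          | acc hq => exact ⟨_, ReflTransGen.refl, hq⟩
          | @stay q q' hq hs =>
            have st : M.Step w (q, 0) (q', 0) := ⟨_, hs, by simp [movePos]⟩
            exact Acc.back st ih
          | @right q q' hq hs =>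
            have st : M.Step w (q, 0) (q', 1) := ⟨_, hs, by simp [movePos]⟩
            exact Acc.back st ih
        · exact RC_sound hs w w [] rfl _ _ e ih
    exact key _ h

theorem accepts_mono {sym : Bool} (hs : sym = true → M.IsDeterministic) {a b : α} {w w' : List α}
    (h : ∀ u v, (psi M sym a w).rel u v → (psi M sym b w').rel u v) (c d : α)
    (hacc : M.Accepts (c :: (a :: w ++ [d]))) : M.Accepts (c :: (b :: w' ++ [d])) := by
  rw [accepts_iff hs, RC_psi, ← K00_rtg] at hacc ⊢
  refine hacc.mono (fun _ _ e => e) ?_ (fun _ _ e => e)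
  have e1 : ∀ (a : α) (w : List α), psi M sym c (a :: w ++ [d]) =
      blk M sym c * (psi M sym a w * psi M sym d []) := by
    intro a w; rw [← psi_append]; rfl
  rw [e1, e1]
  exact mul_mono (fun _ _ e => e) (mul_mono h (fun _ _ e => e))

section live
variable {h : ℕ}

theorem wordRel_append (w w' : List (Fin h → Fin h → Bool)) :
    wordRel (w ++ w') = Comp (wordRel w) (wordRel w') := by
  induction w with
  | nil => ext a c; simp [wordRel, Comp]
  | cons R w ih =>
    ext a c
    simp only [List.cons_append, wordRel, ih, Comp]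
    constructor
    · rintro ⟨b, h1, d, h2, h3⟩; exact ⟨d, ⟨b, h1, h2⟩, h3⟩
    · rintro ⟨d, ⟨b, h1, h2⟩, h3⟩; exact ⟨b, h1, d, h2, h3⟩

def ptR (u : Fin h) : Fin h → Fin h → Bool := fun a b => decide (a = u ∧ b = u)

theorem live_iff (u v : Fin h) (w : List (Fin h → Fin h → Bool)) :
    ptR u :: (w ++ [ptR v]) ∈ liveness h ↔ wordRel w u v := by
  change (∃ a b, wordRel (ptR u :: (w ++ [ptR v])) a b) ↔ _
  simp only [wordRel, wordRel_append, Comp, ptR, decide_eq_true_eq]
  constructor
  · rintro ⟨a, b, c, ⟨-, rfl⟩, d, h1, e, ⟨rfl, -⟩, -⟩; exact h1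
  · intro h1; exact ⟨u, v, u, ⟨rfl, rfl⟩, v, h1, v, ⟨rfl, rfl⟩, rfl⟩

def Ov (M : TwoWayNFA (Fin h → Fin h → Bool) σ) (sym : Bool) (x : Beh (Port σ))
    (R : Fin h → Fin h → Prop) : Prop :=
  ∃ a w, x = psi M sym a w ∧ R = wordRel (a :: w)

theorem Ov.mul {M : TwoWayNFA (Fin h → Fin h → Bool) σ} {sym : Bool} {x y : Beh (Port σ)}
    {R R' : Fin h → Fin h → Prop} (h1 : Ov M sym x R) (h2 : Ov M sym y R') :
    Ov M sym (x * y) (Comp R R') := by
  obtain ⟨a, w, rfl, rfl⟩ := h1
  obtain ⟨b, w', rfl, rfl⟩ := h2
  exact ⟨a, w ++ b :: w', (psi_append _ _ _ _ _ _).symm, (wordRel_append (a :: w) _).symm⟩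

theorem Ov.surj (M : TwoWayNFA (Fin h → Fin h → Bool) σ) (sym : Bool) (R : Fin h → Fin h → Prop) :
    ∃ x, Ov M sym x R := by
  classical
  refine ⟨_, fun a b => decide (R a b), [], rfl, ?_⟩
  ext a b; simp [wordRel]

theorem Ov.sym {M : TwoWayNFA (Fin h → Fin h → Bool) σ} {x : Beh (Port σ)}
    {R : Fin h → Fin h → Prop} (h1 : Ov M true x R) : x.Sym := by
  obtain ⟨a, w, rfl, -⟩ := h1
  exact psi_sym M a w

theorem card_port [Fintype σ] : 2 * Fintype.card (Port σ) = 4 * Fintype.card σ + 2 := by
  simp [Port]; ring

theorem lower_co [Fintype σ] (hh : 2 ≤ h) (M : TwoWayNFA (Fin h → Fin h → Bool) σ)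
    (hM : M.language = (liveness h)ᶜ) : 2 ^ ((h - 2) / 31) ≤ 4 * Fintype.card σ + 2 := by
  have hacc : ∀ w, M.Accepts w ↔ w ∉ liveness h := fun w => by
    change w ∈ M.language ↔ _; rw [hM]; rfl
  let Z : Sys (Fin h) (Beh (Port σ)) (Hub (Port σ)) (2 * Fintype.card (Port σ)) :=
    { Over := Ov M false
      Cov := Cov
      over_mul := Ov.mul
      over_surj := Ov.surj M false
      cov_mul := fun x x' => ⟨_, _, fun _ _ _ _ _ _ _ _ _ _ _ _ h1 h2 => h1.mul h2⟩
      cov_refl := Cov.refl
      cov_init := fun x y _ _ _ _ => Cov.init x y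
      cov_zero := by
        rintro _ _ _ _ hc ⟨a, w, rfl, rfl⟩ ⟨b, w', rfl, rfl⟩ u v huv
        by_contra hn
        rw [← live_iff] at huv hn
        refine (hacc _).1 (accepts_mono (sym := false) (by simp) ?_ _ _ ((hacc _).2 hn)) huv
        intro p q e
        rcases hc.2 p q e with e' | ⟨H, hH, -⟩
        · exact e'
        · simp at hH
      chain := by
        intro e R _ hee G
        obtain ⟨Good, n, a1, a2, a3, a4, a5⟩ := chainD e hee G
        exact ⟨Good, n, a1, a2, fun y A _ _ => a3 y A, a4, fun x x' _ _ _ _ => a5 x x'⟩ }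
  have := Z.bound (by simpa using hh)
  rwa [card_port, Fintype.card_fin] at this

theorem lower_det [Fintype σ] (hh : 2 ≤ h) (M : TwoWayNFA (Fin h → Fin h → Bool) σ)
    (hd : M.IsDeterministic) (hM : M.language = liveness h) :
    2 ^ ((h - 2) / 31) ≤ 4 * Fintype.card σ + 2 := by
  have hacc : ∀ w, M.Accepts w ↔ w ∈ liveness h := fun w => by
    change w ∈ M.language ↔ _; rw [hM]
  let Z : Sys (Fin h) (Beh (Port σ)) (Hub2 (Port σ)) (2 * Fintype.card (Port σ)) :=
    { Over := Ov M true
      Cov := Cov2
      over_mul := Ov.mul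
      over_surj := Ov.surj M true
      cov_mul := fun x x' =>
        ⟨_, _, fun _ _ _ _ _ _ _ _ hx hx' _ _ h1 h2 => Cov2.mul hx.sym hx'.sym h1 h2⟩
      cov_refl := Cov2.refl
      cov_init := fun x y _ _ _ _ => Cov2.init x y
      cov_zero := by
        rintro _ _ _ _ hc ⟨a, w, rfl, rfl⟩ ⟨b, w', rfl, rfl⟩ u v huv
        rw [← live_iff] at huv ⊢
        refine (hacc _).1 (accepts_mono (sym := true) (fun _ => hd) ?_ _ _ ((hacc _).2 huv))
        intro p q e
        rcases hc.2 p q e with e' | ⟨⟨H, hH, -⟩, -⟩
        · exact e'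
        · simp at hH
      chain := by
        intro e R he hee G
        obtain ⟨Good, n, a1, a2, a3, a4, a5⟩ := chainS e he.sym hee G
        exact ⟨Good, n, a1, a2, fun y A _ _ => a3 y A, a4,
          fun x x' _ _ hx hx' => a5 x x' hx.sym hx'.sym⟩ }
  have := Z.bound (by simpa using hh)
  rwa [card_port, Fintype.card_fin] at this

/-- the small one-way automaton -/
def small (pt : Fin h → σ) (s f : σ) : TwoWayNFA (Fin h → Fin h → Bool) σ where
  start := s
  accept := {f}
  step := fun q c => {p | (q = s ∧ c = Cell.leftEnd ∧ ∃ a, p = (pt a, HeadMove.moveRight)) ∨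
    (∃ a b R, q = pt a ∧ c = Cell.letter R ∧ R a b = true ∧ p = (pt b, HeadMove.moveRight)) ∨
    (∃ a, q = pt a ∧ c = Cell.rightEnd ∧ p = (f, HeadMove.stay))}

theorem small_noLeft (pt : Fin h → σ) (s f : σ) : (small pt s f).NoLeftMoves := by
  rintro q a p (⟨-, -, b, rfl⟩ | ⟨_, _, _, -, -, -, rfl⟩ | ⟨_, -, -, rfl⟩) <;> simp

theorem small_lang (pt : Fin h → σ) (s f : σ) (hpt : Function.Injective pt) (hs : ∀ a, pt a ≠ s)
    (hf : ∀ a, pt a ≠ f) (hsf : s ≠ f) : (small pt s f).language = liveness h := by
  ext w
  constructor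
  · rintro ⟨d, hd, hacc⟩
    have key : ∀ c, ReflTransGen ((small pt s f).Step w) (s, 0) c → c = (s, 0) ∨
        (∃ a b pre suf, w = pre ++ suf ∧ c = (pt b, pre.length + 1) ∧ wordRel pre a b) ∨
        (c.1 = f ∧ w ∈ liveness h) := by
      intro c hc
      induction hc with
      | refl => exact Or.inl rfl
      | @tail c c' _ e ih =>
        obtain ⟨m, e1, e2⟩ := e
        obtain ⟨q', i'⟩ := c'
        rcases ih with rfl | ⟨a, b, pre, suf, e3, rfl, e4⟩ | ⟨e3, -⟩
        · rcases e1 with ⟨-, -, a, e1⟩ | ⟨a, b, R, e1, -⟩ | ⟨a, e1, -⟩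
          · obtain ⟨rfl, rfl⟩ := Prod.mk.inj e1
            obtain rfl : 1 = i' := by simpa [movePos] using e2
            exact Or.inr (Or.inl ⟨a, a, [], w, rfl, rfl, rfl⟩)
          · exact (hs a e1.symm).elim
          · exact (hs a e1.symm).elim
        · cases suf with
          | nil =>
            rw [List.append_nil] at e3; subst e3
            rw [scan_end] at e1
            rcases e1 with ⟨e1, -⟩ | ⟨a', b', R, -, e1, -⟩ | ⟨a', -, -, e1⟩
            · exact (hs _ e1).elim
            · cases e1
            · exact Or.inr (Or.inr ⟨(Prod.mk.inj e1).1, a, b, e4⟩)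
          | cons R suf =>
            subst e3
            rw [scan_mid] at e1
            rcases e1 with ⟨e1, -⟩ | ⟨a', b', R', e1, e5, e6, e7⟩ | ⟨a', -, e1, -⟩
            · exact (hs _ e1).elim
            · obtain rfl := hpt e1
              obtain rfl : R = R' := by cases e5; rfl
              obtain ⟨rfl, rfl⟩ := Prod.mk.inj e7
              obtain rfl : pre.length + 1 + 1 = i' := by simpa [movePos] using e2
              refine Or.inr (Or.inl ⟨a, b', pre ++ [R], suf, by simp, by simp, ?_⟩)
              rw [wordRel_append]; exact ⟨b, e4, b', e6, rfl⟩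
            · cases e1
        · rcases e1 with ⟨e1, -⟩ | ⟨a', b', R, e1, -⟩ | ⟨a', e1, -⟩
          · exact (hsf (e1.symm.trans e3)).elim
          · exact (hf _ (e1.symm.trans e3)).elim
          · exact (hf _ (e1.symm.trans e3)).elim
    rcases key d hd with rfl | ⟨a, b, pre, suf, -, rfl, -⟩ | ⟨-, h1⟩
    · exact (hsf hacc).elim
    · exact (hf _ hacc).elim
    · exact h1
  · rintro ⟨a, b, hab⟩
    have key : ∀ suf pre a, w = pre ++ suf → wordRel suf a b →
        ReflTransGen ((small pt s f).Step w) (pt a, pre.length + 1) (f, w.length + 1) := by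
      intro suf
      induction suf with
      | nil =>
        intro pre a e1 _
        rw [List.append_nil] at e1; subst e1
        exact ReflTransGen.single ⟨HeadMove.stay, by
          rw [scan_end]; exact Or.inr (Or.inr ⟨a, rfl, rfl, rfl⟩), by simp [movePos]⟩
      | cons R suf ih =>
        rintro pre a e1 ⟨c, e2, e3⟩
        have := ih (pre ++ [R]) c (by simp [e1]) e3
        rw [List.length_append, List.length_singleton] at this
        refine ReflTransGen.head ⟨HeadMove.moveRight, ?_, ?_⟩ this
        · rw [e1, scan_mid]; exact Or.inr (Or.inl ⟨a, c, R, rfl, rfl, e2, rfl⟩)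
        · simp [movePos, e1]
    exact ⟨_, ReflTransGen.head (b := (pt a, 1)) ⟨HeadMove.moveRight,
      Or.inl ⟨rfl, rfl, a, rfl⟩, by simp [movePos]⟩ (key w [] a rfl hab), rfl⟩

theorem exists_small (h n : ℕ) (hn : h + 2 ≤ n) :
    ∃ A : TwoWayNFA (Fin h → Fin h → Bool) (Fin n), A.NoLeftMoves ∧ A.language = liveness h := by
  refine ⟨small (fun a => ⟨a.val, by omega⟩) ⟨h, by omega⟩ ⟨h + 1, by omega⟩, small_noLeft _ _ _,
    small_lang _ _ _ ?_ ?_ ?_ ?_⟩
  · intro a b e; exact Fin.ext (by simpa using e)
  · intro a e; have := a.2; simp at e; omega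
  · intro a e; have := a.2; simp at e; omega
  · intro e; simp at e

end live

end Crest.Agent.H0444
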